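import Mathlib

set_option autoImplicit false

namespace Crest.Agent.R299

open Finset

section Avg

variable {X : Type*} [Fintype X]

/-- The class of `x` for the map `a`. -/
noncomputable def cls {α : Type*} (a : X → α) (x : X) : Finset X := by
  classical exact univ.filter fun y => a y = a x

lemma mem_cls {α : Type*} {a : X → α} {x y : X} : y ∈ cls a x ↔ a y = a x := by
  classical
  simp [cls]

lemma self_mem_cls {α : Type*} (a : X → α) (x : X) : x ∈ cls a x := mem_cls.2 rfl

lemma cls_eq {α : Type*} {a : X → α} {x y : X} (h : a x = a y) : cls a x = cls a y := by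
  ext z; simp [mem_cls, h]

lemma card_cls_pos {α : Type*} (a : X → α) (x : X) : (0 : ℝ) < (cls a x).card := by
  exact_mod_cast Finset.card_pos.2 ⟨x, self_mem_cls a x⟩

/-- Averaging over the classes of `a`. -/
noncomputable def avg {α : Type*} (a : X → α) : (X → ℝ) →ₗ[ℝ] (X → ℝ) where
  toFun f := fun x => (∑ y ∈ cls a x, f y) / (cls a x).card
  map_add' f g := by
    funext x; simp [Finset.sum_add_distrib, add_div]
  map_smul' c f := by
    funext x; simp [← Finset.mul_sum, mul_div_assoc]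

lemma avg_apply {α : Type*} (a : X → α) (f : X → ℝ) (x : X) :
    avg a f x = (∑ y ∈ cls a x, f y) / (cls a x).card := rfl

lemma avg_meas {α : Type*} {a : X → α} (f : X → ℝ) {x y : X} (h : a x = a y) :
    avg a f x = avg a f y := by
  rw [avg_apply, avg_apply, cls_eq h]

lemma avg_of_meas {α : Type*} {a : X → α} {f : X → ℝ} (h : ∀ x y, a x = a y → f x = f y) :
    avg a f = f := by
  funext x
  rw [avg_apply, Finset.sum_congr rfl (fun y hy => h y x (mem_cls.1 hy))]
  have := card_cls_pos a x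
  simp only [Finset.sum_const, nsmul_eq_mul]
  field_simp

lemma avg_avg {α : Type*} (a : X → α) (f : X → ℝ) : avg a (avg a f) = avg a f :=
  avg_of_meas fun _ _ h => avg_meas f h

lemma sum_cls_comm {α : Type*} (a : X → α) (φ : X → X → ℝ) :
    ∑ x, ∑ y ∈ cls a x, φ x y = ∑ y, ∑ x ∈ cls a y, φ x y := by
  apply Finset.sum_comm'
  intro x y
  simp [mem_cls, eq_comm]

lemma avg_symm {α : Type*} (a : X → α) (f g : X → ℝ) :
    avg a f ⬝ᵥ g = f ⬝ᵥ avg a g := by
  simp only [dotProduct, avg_apply, Finset.sum_div, Finset.sum_mul, Finset.mul_sum]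
  rw [sum_cls_comm]
  refine Finset.sum_congr rfl fun y _ => Finset.sum_congr rfl fun x hx => ?_
  rw [cls_eq (mem_cls.1 hx)]
  ring

/-- A sum is nonnegative when its restriction to every class is. -/
lemma sum_nonneg_of_cls {α : Type*} (a : X → α) (φ : X → ℝ)
    (h : ∀ x, 0 ≤ ∑ y ∈ cls a x, φ y) : 0 ≤ ∑ x, φ x := by
  have h1 : ∑ x, φ x = ∑ x, avg a φ x := by
    have := avg_symm a φ (fun _ => 1)
    rw [avg_of_meas (f := fun _ => (1 : ℝ)) (fun _ _ _ => rfl)] at this
    simpa [dotProduct] using this.symm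
  rw [h1]
  exact Finset.sum_nonneg fun x _ => div_nonneg (h x) (card_cls_pos a x).le

lemma avg_avg_of_finer {α β : Type*} {a : X → α} {b : X → β} (h : ∀ x y, b x = b y → a x = a y)
    (f : X → ℝ) : avg b (avg a f) = avg a f :=
  avg_of_meas fun x y hxy => avg_meas f (h x y hxy)

lemma eq_of_dot {f g : X → ℝ} (h : ∀ k, f ⬝ᵥ k = g ⬝ᵥ k) : f = g := by
  classical
  funext x
  have := h (Pi.single x 1)
  simpa using this

lemma avg_avg_of_finer' {α β : Type*} {a : X → α} {b : X → β} (h : ∀ x y, b x = b y → a x = a y)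
    (f : X → ℝ) : avg a (avg b f) = avg a f := by
  apply eq_of_dot
  intro k
  rw [avg_symm, avg_symm, avg_avg_of_finer h, avg_symm]

/-- Conditional independence in counting form. -/
lemma avg_meas_of_count [DecidableEq X] {α β γ : Type*} (a : X → α) (b : X → β) (c : X → γ) (ν : X → ℝ)
    (hpos : ∀ x y, c x = c y → ((cls a x ∩ cls b y).card : ℝ) = ν y)
    (hneg : ∀ x y, c x ≠ c y → cls a x ∩ cls b y = ∅)
    {g : X → ℝ} (hg : ∀ x y, a x = a y → g x = g y) {y y' : X} (hy : c y = c y') :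
    avg b g y = avg b g y' := by
  classical
  have key : ∀ (g : X → ℝ), (∀ x y, a x = a y → g x = g y) → ∀ y,
      ∑ z ∈ cls b y, g z = ν y * ∑ x ∈ cls c y, g x / (cls a x).card := by
    intro g hg y
    have h1 : ∀ z, g z = ∑ x ∈ cls a z, g x / (cls a x).card := by
      intro z
      rw [Finset.sum_congr rfl (g := fun _ => g z / (cls a z).card)]
      · have := card_cls_pos a z
        simp only [Finset.sum_const, nsmul_eq_mul]
        field_simp
      · intro x hx
        rw [cls_eq (mem_cls.1 hx), hg x z (mem_cls.1 hx)]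
    calc ∑ z ∈ cls b y, g z = ∑ z ∈ cls b y, ∑ x ∈ cls a z, g x / (cls a x).card :=
          Finset.sum_congr rfl fun z _ => h1 z
      _ = ∑ x, ∑ z ∈ cls a x ∩ cls b y, g x / (cls a x).card := by
          apply Finset.sum_comm'
          intro z x
          simp only [mem_cls, Finset.mem_inter, Finset.mem_univ, and_true]
          constructor
          · rintro ⟨h1, h2⟩; exact ⟨h2.symm, h1⟩
          · rintro ⟨h1, h2⟩; exact ⟨h2, h1.symm⟩
      _ = ∑ x, if c x = c y then ν y * (g x / (cls a x).card) else 0 := by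
          refine Finset.sum_congr rfl fun x _ => ?_
          split_ifs with h
          · rw [Finset.sum_const, nsmul_eq_mul, hpos x y h]
          · rw [hneg x y h]; simp
      _ = ν y * ∑ x ∈ cls c y, g x / (cls a x).card := by
          rw [Finset.mul_sum, ← Finset.sum_filter]
          refine Finset.sum_congr ?_ fun _ _ => rfl
          ext x; simp [mem_cls]
  have hν : ∀ y, 0 < ν y := by
    intro y
    rw [← hpos y y rfl]
    exact_mod_cast Finset.card_pos.2 ⟨y, Finset.mem_inter.2 ⟨self_mem_cls a y, self_mem_cls b y⟩⟩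
  have hc : ∀ y, ((cls b y).card : ℝ) = ν y * ∑ x ∈ cls c y, (1 : ℝ) / (cls a x).card := by
    intro y
    have := key (fun _ => 1) (fun _ _ _ => rfl) y
    simpa using this
  rw [avg_apply, avg_apply, key g hg, key g hg, hc, hc, cls_eq hy,
    mul_div_mul_left _ _ (hν y).ne', mul_div_mul_left _ _ (hν y').ne']

lemma avg_comm_of_count [DecidableEq X] {α β γ : Type*} (a : X → α) (b : X → β) (c : X → γ) (ν : X → ℝ)
    (hpos : ∀ x y, c x = c y → ((cls a x ∩ cls b y).card : ℝ) = ν y)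
    (hneg : ∀ x y, c x ≠ c y → cls a x ∩ cls b y = ∅)
    (hca : ∀ x y, a x = a y → c x = c y) (f : X → ℝ) :
    avg a (avg b f) = avg b (avg a f) := by
  have h1 : ∀ f, avg a (avg b (avg a f)) = avg b (avg a f) := fun f =>
    avg_of_meas fun x y h =>
      avg_meas_of_count a b c ν hpos hneg (fun _ _ h => avg_meas f h) (hca x y h)
  apply eq_of_dot
  intro k
  rw [avg_symm, avg_symm, ← h1 k, ← avg_symm, ← avg_symm, ← avg_symm, h1 f]

lemma dot_self_nonneg (f : X → ℝ) : 0 ≤ f ⬝ᵥ f :=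
  Finset.sum_nonneg fun x _ => mul_self_nonneg (f x)

/-- Two commuting symmetric idempotents have a nonnegative product. -/
lemma dot_nonneg_of_comm (P Q : (X → ℝ) →ₗ[ℝ] (X → ℝ))
    (hP : ∀ f g, P f ⬝ᵥ g = f ⬝ᵥ P g) (hQ : ∀ f g, Q f ⬝ᵥ g = f ⬝ᵥ Q g)
    (hPP : ∀ f, P (P f) = P f) (hQQ : ∀ f, Q (Q f) = Q f) (hc : ∀ f, P (Q f) = Q (P f))
    (f : X → ℝ) : 0 ≤ P f ⬝ᵥ Q f := by
  have : P f ⬝ᵥ Q f = P (Q f) ⬝ᵥ P (Q f) := by
    rw [hP (Q f), hPP, hQ f, ← hc, hQQ, hP]
  rw [this]
  exact dot_self_nonneg _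

/-- Spectral theorem in the form used here. -/
lemma spectral_quad (S : (X → ℝ) →ₗ[ℝ] (X → ℝ)) (hS : ∀ f g, S f ⬝ᵥ g = f ⬝ᵥ S g)
    (c0 c1 c2 : ℝ) (f : X → ℝ)
    (h : ∀ (l : ℝ) (g : X → ℝ), S g = l • g → 0 ≤ (c0 + c1 * l + c2 * l ^ 2) * (g ⬝ᵥ f) ^ 2) :
    0 ≤ c0 * (f ⬝ᵥ f) + c1 * (f ⬝ᵥ S f) + c2 * (S f ⬝ᵥ S f) := by
  classical
  let e : EuclideanSpace ℝ X ≃ₗ[ℝ] (X → ℝ) := (EuclideanSpace.equiv X ℝ).toLinearEquiv
  let T : EuclideanSpace ℝ X →ₗ[ℝ] EuclideanSpace ℝ X := e.symm.toLinearMap ∘ₗ S ∘ₗ e.toLinearMap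
  have hin : ∀ u v : EuclideanSpace ℝ X, inner ℝ u v = e u ⬝ᵥ e v := by
    intro u v
    simp [e, PiLp.inner_apply, dotProduct, mul_comm]
  have hT : T.IsSymmetric := by
    intro u v
    rw [hin, hin]
    simp [T, hS]
  have hn : Module.finrank ℝ (EuclideanSpace ℝ X) = Fintype.card X := by simp
  let b := hT.eigenvectorBasis hn
  let l := hT.eigenvalues hn
  have hb : ∀ i, S (e (b i)) = l i • e (b i) := by
    intro i
    have := hT.apply_eigenvectorBasis hn i
    have h2 := congrArg e this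
    rw [map_smul] at h2
    have h3 : e (T (b i)) = S (e (b i)) := by simp [T]
    rw [← h3]
    exact h2
  have hpar : ∀ u v : X → ℝ, u ⬝ᵥ v = ∑ i, (e (b i) ⬝ᵥ u) * (e (b i) ⬝ᵥ v) := by
    intro u v
    have := b.sum_inner_mul_inner (e.symm u) (e.symm v)
    rw [hin] at this
    simp only [LinearEquiv.apply_symm_apply] at this
    rw [← this]
    refine Finset.sum_congr rfl fun i _ => ?_
    rw [hin, hin]
    simp only [LinearEquiv.apply_symm_apply]
    rw [dotProduct_comm u]
  have hSf : ∀ i, e (b i) ⬝ᵥ S f = l i * (e (b i) ⬝ᵥ f) := by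
    intro i
    rw [← hS, hb]; simp
  rw [hpar f f, hpar f (S f), hpar (S f) (S f), Finset.mul_sum, Finset.mul_sum, Finset.mul_sum,
    ← Finset.sum_add_distrib, ← Finset.sum_add_distrib]
  refine Finset.sum_nonneg fun i _ => ?_
  have := h (l i) (e (b i)) (hb i)
  rw [hSf]
  nlinarith [this]

end Avg

end Crest.Agent.R299
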