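import Crest.Agent.R299.Pair

set_option autoImplicit false

namespace Crest.Agent.R299

open Finset

variable {V : Type*} [DecidableEq V] [Fintype V] {d : V → ℕ}

/-- The free columns of the pair `u, v`. -/
def freeC (u v : V) (N : GX d) : Finset V :=
  univ.filter fun c => c ≠ u ∧ c ≠ v ∧ ind (N.1 u) c + ind (N.1 v) c = 1

lemma mem_freeC {u v c : V} {N : GX d} :
    c ∈ freeC u v N ↔ c ≠ u ∧ c ≠ v ∧ ind (N.1 u) c + ind (N.1 v) c = 1 := by simp [freeC]

omit [Fintype V] in
lemma col_pair {u v : V} (huv : u ≠ v) {N N' : GX d} (h : out {u, v} N = out {u, v} N') {c : V}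
    (h1 : c ≠ u) (h2 : c ≠ v) :
    ind (N.1 u) c + ind (N.1 v) c = ind (N'.1 u) c + ind (N'.1 v) c := by
  have := pair_inv huv h h1 h2
  rwa [N.ind_symm c u, N.ind_symm c v, N'.ind_symm c u, N'.ind_symm c v] at this

lemma edge_inv {u v : V} (huv : u ≠ v) {N N' : GX d} (h : out {u, v} N = out {u, v} N') :
    ind (N.1 u) v = ind (N'.1 u) v := by
  have key : ∀ N : GX d, d u + d v = 2 * ind (N.1 u) v +
      ∑ z ∈ ({u, v} : Finset V)ᶜ, (ind (N.1 u) z + ind (N.1 v) z) := by
    intro N
    have e1 := card_eq_sdiff_add (N.1 u) {u, v}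
    have e2 := card_eq_sdiff_add (N.1 v) {u, v}
    rw [sum_pair huv, N.card, N.ind_self] at e1 e2
    rw [Finset.sum_add_distrib, ← card_sdiff_eq_sum, ← card_sdiff_eq_sum]
    rw [N.ind_symm v u] at e2
    omega
  have k1 := key N
  have k2 := key N'
  rw [Finset.sum_congr rfl fun z hz => col_pair huv h (c := z) (by simp at hz; tauto)
    (by simp at hz; tauto)] at k1
  omega

lemma fixed_of_not_free {u v : V} (huv : u ≠ v) {N N' : GX d} (h : out {u, v} N = out {u, v} N')
    {c : V} (hc : c ∉ freeC u v N') :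
    ind (N.1 u) c = ind (N'.1 u) c ∧ ind (N.1 v) c = ind (N'.1 v) c := by
  have e := edge_inv huv h
  by_cases h1 : c = u
  · subst h1
    rw [N.ind_self, N'.ind_self, N.ind_symm v c, N'.ind_symm v c]; exact ⟨rfl, e⟩
  by_cases h2 : c = v
  · subst h2
    rw [N.ind_self, N'.ind_self]; exact ⟨e, rfl⟩
  have := col_pair huv h h1 h2
  rw [mem_freeC] at hc
  have := ind_le (N.1 u) c
  have := ind_le (N.1 v) c
  have := ind_le (N'.1 u) c
  have := ind_le (N'.1 v) c
  have : ind (N'.1 u) c + ind (N'.1 v) c ≠ 1 := fun t => hc ⟨h1, h2, t⟩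
  omega

lemma free_sum {u v : V} (huv : u ≠ v) {N N' : GX d} (h : out {u, v} N = out {u, v} N')
    {c : V} (hc : c ∈ freeC u v N') : ind (N.1 u) c + ind (N.1 v) c = 1 := by
  rw [mem_freeC] at hc
  rw [col_pair huv h hc.1 hc.2.1, hc.2.2]

lemma eq_of_row {u v : V} (huv : u ≠ v) {N N' N0 : GX d} (h : out {u, v} N = out {u, v} N0)
    (h' : out {u, v} N' = out {u, v} N0)
    (e : ∀ c ∈ freeC u v N0, (c ∈ N.1 u ↔ c ∈ N'.1 u)) : N = N' := by
  have key : ∀ c, ind (N.1 u) c = ind (N'.1 u) c ∧ ind (N.1 v) c = ind (N'.1 v) c := by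
    intro c
    by_cases hc : c ∈ freeC u v N0
    · have t1 := free_sum huv h hc
      have t2 := free_sum huv h' hc
      have t3 : ind (N.1 u) c = ind (N'.1 u) c := by simp only [ind, e c hc]
      omega
    · have t1 := fixed_of_not_free huv h hc
      have t2 := fixed_of_not_free huv h' hc
      omega
  refine ext_of_out (h.trans h'.symm) fun a ha => ?_
  rw [finset_eq_iff_ind]
  intro c
  simp only [mem_insert, mem_singleton] at ha
  rcases ha with rfl | rfl
  exacts [(key c).1, (key c).2]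

theorem fiber_param {u v : V} (huv : u ≠ v) (N0 : GX d) :
    ∃ (k : ℕ) (ψ : Finset V → GX d),
      (∀ φ : GX d → ℝ, ∑ N ∈ cls (out {u, v}) N0, φ N =
        ∑ S ∈ (freeC u v N0).powersetCard k, φ (ψ S)) ∧
      ∀ S ∈ (freeC u v N0).powersetCard k, out {u, v} (ψ S) = out {u, v} N0 ∧
        ∀ c ∈ freeC u v N0, (c ∈ (ψ S).1 u ↔ c ∈ S) := by
  classical
  set F := freeC u v N0 with hF
  have ex : ∀ S ∈ F.powersetCard (N0.1 u ∩ F).card, ∃ N : GX d, out {u, v} N = out {u, v} N0 ∧
      ∀ c ∈ F, (c ∈ N.1 u ↔ c ∈ S) := by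
    intro S hS
    obtain ⟨hS1, hS2⟩ := mem_powersetCard.1 hS
    let ρ : V → Finset V := fun t => if t = u then (N0.1 u \ F) ∪ S else (N0.1 v \ F) ∪ (F \ S)
    have ρu : ρ u = (N0.1 u \ F) ∪ S := by simp [ρ]
    have ρv : ρ v = (N0.1 v \ F) ∪ (F \ S) := by simp [ρ, huv.symm]
    have uF : u ∉ F := by simp [hF, mem_freeC]
    have vF : v ∉ F := by simp [hF, mem_freeC]
    have a1 : ∀ c, c ∉ F → (c ∈ ρ u ↔ c ∈ N0.1 u) := fun c hc => by
      have : c ∉ S := fun t => hc (hS1 t)
      simp [ρu, hc, this]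
    have a2 : ∀ c, c ∉ F → (c ∈ ρ v ↔ c ∈ N0.1 v) := fun c hc => by simp [ρv, hc]
    have a3 : ∀ c ∈ F, (c ∈ ρ u ↔ c ∈ S) := fun c hc => by simp [ρu, hc]
    have a4 : ∀ c ∈ F, (c ∈ ρ v ↔ c ∉ S) := fun c hc => by simp [ρv, hc]
    have a5 : ∀ c, ind (ρ u) c + ind (ρ v) c = ind (N0.1 u) c + ind (N0.1 v) c := by
      intro c
      by_cases hc : c ∈ F
      · rw [(mem_freeC.1 hc).2.2]
        simp only [ind, a3 c hc, a4 c hc]
        by_cases t : c ∈ S <;> simp [t]
      · simp only [ind, a1 c hc, a2 c hc]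
    have cu : (ρ u).card = d u := by
      rw [ρu, card_union_of_disjoint (disjoint_of_subset_right hS1 sdiff_disjoint), hS2,
        card_sdiff_add_card_inter, N0.card]
    have cv : (ρ v).card = d v := by
      have : (ρ u).card + (ρ v).card = (N0.1 u).card + (N0.1 v).card := by
        simp only [card_eq_sum_ind, ← Finset.sum_add_distrib, a5]
      rw [cu, N0.card, N0.card] at this
      omega
    obtain ⟨N, hN, hρ⟩ := patch N0 {u, v} ρ
      (by
        intro a ha b hb
        simp only [mem_insert, mem_singleton] at ha hb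
        rcases ha with rfl | rfl <;> rcases hb with rfl | rfl
        · exact id
        · rw [a1 b vF, a2 a uF]; exact N0.symm.1
        · rw [a1 a vF, a2 b uF]; exact N0.symm.1
        · exact id)
      (by
        intro a ha
        simp only [mem_insert, mem_singleton] at ha
        rcases ha with rfl | rfl
        · rw [a1 a uF]; exact N0.irrefl a
        · rw [a2 a vF]; exact N0.irrefl a)
      (by
        intro a ha
        simp only [mem_insert, mem_singleton] at ha
        rcases ha with rfl | rfl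
        exacts [cu, cv])
      (by
        intro c _
        rw [sum_pair huv, sum_pair huv, a5])
    refine ⟨N, hN, fun c hc => ?_⟩
    rw [hρ u (by simp), a3 c hc]
  have : Nonempty (GX d) := ⟨N0⟩
  choose! ψ hψ using ex
  refine ⟨(N0.1 u ∩ F).card, ψ, fun φ => ?_, hψ⟩
  symm
  refine Finset.sum_bij' (fun S _ => ψ S) (fun N _ => N.1 u ∩ F) ?_ ?_ ?_ ?_ ?_
  · intro S hS; exact mem_cls.2 (hψ S hS).1
  · intro N hN
    refine mem_powersetCard.2 ⟨inter_subset_right, ?_⟩
    have h1 := card_sdiff_add_card_inter (N.1 u) F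
    have h2 := card_sdiff_add_card_inter (N0.1 u) F
    have h3 : N.1 u \ F = N0.1 u \ F := by
      ext c
      simp only [mem_sdiff]
      refine and_congr_left fun hc => ?_
      rw [mem_iff_ind, mem_iff_ind, (fixed_of_not_free huv (mem_cls.1 hN) hc).1]
    rw [h3, N.card] at h1
    rw [N0.card] at h2
    omega
  · intro S hS
    ext c
    rw [mem_inter]
    exact ⟨fun t => ((hψ S hS).2 c t.2).1 t.1, fun t =>
      ⟨((hψ S hS).2 c ((mem_powersetCard.1 hS).1 t)).2 t, (mem_powersetCard.1 hS).1 t⟩⟩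
  · intro N hN
    have hm : N.1 u ∩ F ∈ F.powersetCard (N0.1 u ∩ F).card := by
      refine mem_powersetCard.2 ⟨inter_subset_right, ?_⟩
      have h1 := card_sdiff_add_card_inter (N.1 u) F
      have h2 := card_sdiff_add_card_inter (N0.1 u) F
      have h3 : N.1 u \ F = N0.1 u \ F := by
        ext c
        simp only [mem_sdiff]
        refine and_congr_left fun hc => ?_
        rw [mem_iff_ind, mem_iff_ind, (fixed_of_not_free huv (mem_cls.1 hN) hc).1]
      rw [h3, N.card] at h1
      rw [N0.card] at h2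
      omega
    refine eq_of_row huv (hψ _ hm).1 (mem_cls.1 hN) fun c hc => ?_
    rw [(hψ _ hm).2 c hc, mem_inter]
    exact ⟨fun t => t.1, fun t => ⟨t, hc⟩⟩
  · intro _ _; rfl

lemma dl_col_iff {u v w x : V} (h : Dist u v w x) {N N0 : GX d}
    (ho : out {u, v} N = out {u, v} N0) :
    dl w x u v N ↔ w ∈ freeC u v N0 ∧ x ∈ freeC u v N0 := by
  rw [dl_meas h.symm ho, dl_iff, mem_freeC, mem_freeC, N0.ind_symm w u, N0.ind_symm w v,
    N0.ind_symm x u, N0.ind_symm x v]
  obtain ⟨h1, h2, h3, h4, h5, h6⟩ := h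
  simp [h2.symm, h3.symm, h4.symm, h5.symm]

lemma dl_row_iff {u v w x : V} (huv : u ≠ v) {N N0 : GX d}
    (ho : out {u, v} N = out {u, v} N0) (hw : w ∈ freeC u v N0) (hx : x ∈ freeC u v N0) :
    dl u v w x N ↔ ¬ (w ∈ N.1 u ↔ x ∈ N.1 u) := by
  have t1 := free_sum huv ho hw
  have t2 := free_sum huv ho hx
  rw [dl_iff, mem_iff_ind, mem_iff_ind]
  have := ind_le (N.1 u) w
  have := ind_le (N.1 u) x
  omega

lemma dist_of_free {u v w x : V} (huv : u ≠ v) {N0 : GX d} (hw : w ∈ freeC u v N0)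
    (hx : x ∈ freeC u v N0) (hwx : w ≠ x) : Dist u v w x := by
  rw [mem_freeC] at hw hx
  exact ⟨huv, hw.1.symm, hx.1.symm, hw.2.1.symm, hx.2.1.symm, hwx⟩

lemma tau_param {u v w x : V} (huv : u ≠ v) {N N' N0 : GX d} {S : Finset V}
    (hw : w ∈ freeC u v N0) (hx : x ∈ freeC u v N0) (hwx : w ≠ x)
    (h1 : out {u, v} N = out {u, v} N0) (h2 : ∀ c ∈ freeC u v N0, (c ∈ N.1 u ↔ c ∈ S))
    (h3 : out {u, v} N' = out {u, v} N0) (h4 : ∀ c ∈ freeC u v N0, (c ∈ N'.1 u ↔ c ∈ sw w x S)) :
    tau u v w x N = N' := by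
  have hd := dist_of_free huv hw hx hwx
  refine eq_of_row huv ((out_tau _ _ _ _ _).trans h1) h3 fun c hc => ?_
  rw [h4 c hc]
  by_cases t : dl u v w x N
  · have t' := (dl_row_iff huv h1 hw hx).1 t
    rw [h2 w hw, h2 x hx] at t'
    rw [mem_tau hd t ((dl_col_iff hd h1).2 ⟨hw, hx⟩), mem_sw_of_xor (by tauto), h2 c hc]
    obtain ⟨d1, d2, d3, d4, d5, d6⟩ := hd
    simp [kk, d2, d3]
  · rw [tau_of_not (fun s => t s.2.1), h2 c hc]
    rw [dl_row_iff huv h1 hw hx, not_not, h2 w hw, h2 x hx] at t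
    rw [sw_eq_self t]

open Classical in
theorem fiber_nonneg {u v : V} (huv : u ≠ v) (f : GX d → ℝ) :
    0 ≤ ∑ w, ∑ x, if Dist u v w x then ∑ N, (oddP u v w x f N - negP u v w x f N) else 0 := by
  have e : (∑ w, ∑ x, if Dist u v w x then ∑ N, (oddP u v w x f N - negP u v w x f N) else 0) =
      ∑ N, ∑ w, ∑ x, if Dist u v w x then (oddP u v w x f N - negP u v w x f N) else 0 := by
    rw [Finset.sum_comm (s := univ) (t := univ) (f := fun N w => ∑ x,
      if Dist u v w x then (oddP u v w x f N - negP u v w x f N) else 0)]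
    refine Finset.sum_congr rfl fun w _ => ?_
    rw [Finset.sum_comm]
    refine Finset.sum_congr rfl fun x _ => ?_
    split_ifs <;> simp
  rw [e]
  refine sum_nonneg_of_cls (out {u, v}) _ fun N0 => ?_
  obtain ⟨k, ψ, hsum, hψ⟩ := fiber_param huv N0
  set F := freeC u v N0 with hF
  set Φ := F.powersetCard k with hΦ
  set m := avg (out {u, v}) f N0 with hm
  set g : Finset V → ℝ := fun S => f (ψ S) - m with hg
  have hcard : ((cls (out {u, v}) N0).card : ℝ) = Φ.card := by
    simpa using hsum (fun _ => 1)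
  have hg0 : ∑ S ∈ Φ, g S = 0 := by
    have := card_cls_pos (out {u, v}) N0
    simp only [hg, Finset.sum_sub_distrib, Finset.sum_const, nsmul_eq_mul]
    rw [← hsum f, ← hcard, hm, avg_apply]
    field_simp
    ring
  have key := slice_neg_le F k g hg0
  rw [hsum, Finset.sum_comm]
  simp only [Finset.sum_comm (s := Φ)]
  rw [← sub_nonneg, ← Finset.sum_sub_distrib] at key
  simp only [← Finset.sum_sub_distrib] at key
  have other : ∀ w x, ¬ (w ∈ F ∧ x ∈ F) → 0 ≤ ∑ S ∈ Φ,
      if Dist u v w x then (oddP u v w x f (ψ S) - negP u v w x f (ψ S)) else 0 := by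
    intro w x hwx
    refine Finset.sum_nonneg fun S hS => ?_
    split_ifs with hd
    · unfold negP oddP
      rw [if_neg (fun t => hwx ((dl_col_iff hd (hψ S hS).1).1 t.2)), sub_zero]
      exact sq_nonneg _
    · exact le_rfl
  refine key.trans (le_trans (le_of_eq ?_) (le_trans (b := ∑ w ∈ F, ∑ x, ∑ S ∈ Φ,
      if Dist u v w x then (oddP u v w x f (ψ S) - negP u v w x f (ψ S)) else 0)
      (a := ∑ w ∈ F, ∑ x ∈ F, ∑ S ∈ Φ,
      if Dist u v w x then (oddP u v w x f (ψ S) - negP u v w x f (ψ S)) else 0) ?_ ?_))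
  · refine Finset.sum_congr rfl fun w hw => Finset.sum_congr rfl fun x hx => ?_
    by_cases hwx : w = x
    · subst hwx
      have : ¬ Dist u v w w := fun t => t.2.2.2.2.2 rfl
      simp [this, dI_self, sw_eq_self]
    have hd := dist_of_free huv hw hx hwx
    simp only [if_pos hd, Finset.sum_sub_distrib]
    congr 1
    · refine Finset.sum_congr rfl fun S hS => ?_
      have hS' := sw_mem_powersetCard hw hx hS
      unfold oddP
      rw [tau_param huv hw hx hwx (hψ S hS).1 (hψ S hS).2 (hψ _ hS').1 (hψ _ hS').2]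
      simp only [hg]; ring
    · have dd : ∀ S ∈ Φ, (dl u v w x (ψ S) ↔ ¬ (w ∈ S ↔ x ∈ S)) := fun S hS => by
        rw [dl_row_iff huv (hψ S hS).1 hw hx, (hψ S hS).2 w hw, (hψ S hS).2 x hx]
      have sm : ∀ φ : GX d → ℝ, ∑ N ∈ (cls (out {u, v}) N0).filter (dl u v w x), φ N =
          ∑ S ∈ Φ, dI w x S * φ (ψ S) := by
        intro φ
        rw [Finset.sum_filter, hsum]
        refine Finset.sum_congr rfl fun S hS => ?_
        simp only [dd S hS, dI]
        split_ifs <;> simp
      set R := ∑ S ∈ Φ, dI w x S with hR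
      set a := ∑ S ∈ Φ, dI w x S * g S with ha
      have : ∀ S ∈ Φ, negP u v w x f (ψ S) = dI w x S * (a / R) ^ 2 := by
        intro S hS
        unfold negP
        by_cases t : dl u v w x (ψ S)
        · rw [if_pos ⟨t, (dl_col_iff hd (hψ S hS).1).2 ⟨hw, hx⟩⟩]
          have t1 : dI w x S = 1 := by unfold dI; rw [if_neg ((dd S hS).1 t)]
          have t2 : cls (ref u v w x) (ψ S) = (cls (out {u, v}) N0).filter (dl u v w x) := by
            ext N
            rw [mem_cls, ref_eq_iff, mem_filter, mem_cls, (hψ S hS).1]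
            simp [t]
          have t3 : (((cls (out {u, v}) N0).filter (dl u v w x)).card : ℝ) = R := by
            simpa using sm (fun _ => 1)
          have t4 : (0 : ℝ) < R := by rw [← t3, ← t2]; exact card_cls_pos _ _
          rw [t1, one_mul, avg_meas f (hψ S hS).1, ← hm, avg_apply, t2, t3, sm]
          congr 1
          simp only [ha, hg, mul_sub, Finset.sum_sub_distrib, ← Finset.sum_mul, ← hR]
          field_simp
        · rw [if_neg (fun s => t s.1)]
          have t1 : dI w x S = 0 := by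
            unfold dI; rw [if_pos (by rw [dd S hS, not_not] at t; exact t)]
          rw [t1, zero_mul]
      rw [Finset.sum_congr rfl this, ← Finset.sum_mul, ← hR]
      by_cases hR0 : R = 0
      · simp [hR0]
      · field_simp
  · refine Finset.sum_le_sum fun w _ => ?_
    exact Finset.sum_le_sum_of_subset_of_nonneg (subset_univ _)
      fun x _ hx => other w x fun t => hx t.2
  · exact Finset.sum_le_sum_of_subset_of_nonneg (subset_univ _)
      fun w _ hw => Finset.sum_nonneg fun x _ => other w x fun t => hw t.1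

/-- A switch taking `u w`, `v x` to `u x`, `v w` is available. -/
def Avail (u v w x : V) (N : GX d) : Prop :=
  Dist u v w x ∧ w ∈ N.1 u ∧ x ∉ N.1 u ∧ x ∈ N.1 v ∧ w ∉ N.1 v

open Classical in
theorem fiber_poincare {u v : V} (huv : u ≠ v) (f : GX d → ℝ) :
    (f - avg (out {u, v}) f) ⬝ᵥ (f - avg (out {u, v}) f) ≤
      ∑ N, ∑ w, ∑ x, if Avail u v w x N then (f N - f (tau u v w x N)) ^ 2 else 0 := by
  rw [← sub_nonneg, dotProduct, ← Finset.sum_sub_distrib]
  refine sum_nonneg_of_cls (out {u, v}) _ fun N0 => ?_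
  obtain ⟨k, ψ, hsum, hψ⟩ := fiber_param huv N0
  set F := freeC u v N0 with hF
  set Φ := F.powersetCard k with hΦ
  have hcard : ((cls (out {u, v}) N0).card : ℝ) = Φ.card := by
    simpa using hsum (fun _ => 1)
  have hm : avg (out {u, v}) f N0 = mean Φ (fun S => f (ψ S)) := by
    rw [avg_apply, hsum, hcard, mean]
  have key := slice_poincare F k (fun S => f (ψ S))
  rw [hsum, Finset.sum_sub_distrib, sub_nonneg]
  refine le_trans (le_of_eq ?_) (key.trans ?_)
  · refine Finset.sum_congr rfl fun S hS => ?_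
    rw [Pi.sub_apply, avg_meas f (hψ S hS).1, hm, sq]
  · unfold exch
    refine Finset.sum_le_sum fun S hS => ?_
    have hSF := (mem_powersetCard.1 hS).1
    refine le_trans (Finset.sum_le_sum fun w hw => ?_)
      (Finset.sum_le_sum_of_subset_of_nonneg (subset_univ S) fun w _ _ =>
        Finset.sum_nonneg fun x _ => by split_ifs <;> positivity)
    refine le_trans (le_of_eq (Finset.sum_congr rfl fun x hx => ?_))
      (Finset.sum_le_sum_of_subset_of_nonneg (subset_univ (F \ S)) fun x _ _ => by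
        split_ifs <;> positivity)
    rw [mem_sdiff] at hx
    have hwx : w ≠ x := fun t => hx.2 (t ▸ hw)
    have hS' := sw_mem_powersetCard (hSF hw) hx.1 hS
    have m1 : w ∈ (ψ S).1 u := ((hψ S hS).2 w (hSF hw)).2 hw
    have m2 : x ∉ (ψ S).1 u := fun t => hx.2 (((hψ S hS).2 x hx.1).1 t)
    have s1 := free_sum huv (hψ S hS).1 (hSF hw)
    have s2 := free_sum huv (hψ S hS).1 hx.1
    rw [ind_of_mem m1] at s1
    rw [ind_of_notMem m2] at s2
    rw [if_pos ⟨dist_of_free huv (hSF hw) hx.1 hwx, m1, m2, mem_iff_ind.2 (by omega),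
      notMem_iff_ind.2 (by omega)⟩,
      tau_param huv (hSF hw) hx.1 hwx (hψ S hS).1 (hψ S hS).2 (hψ _ hS').1 (hψ _ hS').2,
      sw_eq_insert_erase hw hx.2]

omit [DecidableEq V] [Fintype V] in
lemma Avail.dl {u v w x : V} {N : GX d} (h : Avail u v w x N) :
    dl u v w x N ∧ dl w x u v N := by
  obtain ⟨-, h1, h2, h3, h4⟩ := h
  unfold R299.dl
  rw [N.symm (a := w), N.symm (a := w), N.symm (a := x), N.symm (a := x)]
  tauto

/-- Connectivity under switches. -/
theorem connected (f : GX d → ℝ)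
    (hf : ∀ u v, u ≠ v → ∀ N N' : GX d, out {u, v} N = out {u, v} N' → f N = f N')
    (N N' : GX d) : f N = f N' := by
  suffices H : ∀ (n : ℕ) (Z : Finset V), Zᶜ.card = n → ∀ N N' : GX d,
      (∀ z ∈ Z, N.1 z = N'.1 z) → f N = f N' from H _ ∅ rfl N N' (by simp)
  intro n
  induction n with
  | zero =>
    intro Z hZ N N' h
    rw [card_eq_zero, compl_eq_empty_iff] at hZ
    rw [GX.ext' (N := N) (N' := N') fun a b => by rw [h a (hZ ▸ mem_univ a)]]
  | succ n ih =>
    intro Z hZ
    obtain ⟨z, hz⟩ : Zᶜ.Nonempty := card_pos.1 (by omega)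
    have hz' : z ∉ Z := mem_compl.1 hz
    have ih' := ih (insert z Z) (by
      rw [compl_insert, card_erase_of_mem hz, hZ]; rfl)
    have move : ∀ (N N' : GX d) (a b : V), (∀ y ∈ Z, N.1 y = N'.1 y) → a ∈ N'.1 z → a ∉ N.1 z →
        b ∈ N.1 z → b ∉ N'.1 z → (N.1 b \ Z).card ≤ (N.1 a \ Z).card →
        ∃ N1 : GX d, f N1 = f N ∧ (∀ y ∈ Z, N1.1 y = N.1 y) ∧
          N1.1 z = insert a ((N.1 z).erase b) := by
      intro N N' a b h ha ha' hb hb' hle
      have aZ : a ∉ Z := fun t => ha' (by rw [N.symm, h a t, N'.symm]; exact ha)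
      have bZ : b ∉ Z := fun t => hb' (by rw [N'.symm, ← h b t, N.symm]; exact hb)
      have hab : a ≠ b := fun t => ha' (t ▸ hb)
      have haz : a ≠ z := fun t => N'.irrefl z (t ▸ ha)
      have hbz : b ≠ z := fun t => N.irrefl z (t ▸ hb)
      obtain ⟨c, hc1, hc2, hc3, hc4⟩ : ∃ c, c ∈ N.1 a ∧ c ∉ Z ∧ c ≠ b ∧ c ∉ N.1 b := by
        by_contra hne
        push Not at hne
        have s1 : (N.1 a \ Z).erase b ⊆ ((N.1 b \ Z).erase a).erase z := by
          intro c hc
          simp only [mem_erase, mem_sdiff] at hc ⊢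
          refine ⟨?_, ?_, hne c hc.2.1 hc.2.2 hc.1, hc.2.2⟩
          · rintro rfl; exact ha' (N.symm.1 hc.2.1)
          · rintro rfl; exact N.irrefl c hc.2.1
        have s2 := card_le_card s1
        have s3 : z ∈ (N.1 b \ Z).erase a := by
          simp only [mem_erase, mem_sdiff]; exact ⟨haz.symm, N.symm.1 hb, hz'⟩
        have s4 := card_pos.2 ⟨z, s3⟩
        rw [card_erase_of_mem s3] at s2
        by_cases t : b ∈ N.1 a
        · have t1 : b ∈ N.1 a \ Z := mem_sdiff.2 ⟨t, bZ⟩
          have t2 : a ∈ N.1 b \ Z := mem_sdiff.2 ⟨N.symm.1 t, aZ⟩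
          rw [card_erase_of_mem t1] at s2
          rw [card_erase_of_mem t2] at s2 s4
          omega
        · have t1 : b ∉ N.1 a \ Z := fun s => t (mem_sdiff.1 s).1
          have t2 : a ∉ N.1 b \ Z := fun s => t (N.symm.1 (mem_sdiff.1 s).1)
          rw [erase_eq_of_notMem t1] at s2
          rw [erase_eq_of_notMem t2] at s2 s4
          omega
      have hcz : z ≠ c := fun t => ha' (N.symm.1 (t ▸ hc1))
      have hca : a ≠ c := fun t => N.irrefl a (t ▸ hc1)
      have av : Avail b a z c N :=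
        ⟨⟨hab.symm, hbz, hc3.symm, haz, hca, hcz⟩, N.symm.1 hb, hc4, hc1,
          fun t => ha' (N.symm.1 t)⟩
      have mt := mem_tau av.1 av.dl.1 av.dl.2
      refine ⟨tau b a z c N, hf b a hab.symm _ _ (out_tau _ _ _ _ _), fun y hy => ?_, ?_⟩
      · ext t
        have y1 : y ≠ a := fun s => aZ (s ▸ hy)
        have y2 : y ≠ b := fun s => bZ (s ▸ hy)
        have y3 : y ≠ z := fun s => hz' (s ▸ hy)
        have y4 : y ≠ c := fun s => hc2 (s ▸ hy)
        rw [mt]; simp [kk, y1, y2, y3, y4]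
      · ext t
        rw [mt, mem_insert, mem_erase]
        simp only [kk, haz.symm, hbz.symm, or_self, false_and, true_or, true_and, false_or]
        by_cases t1 : t = a
        · subst t1; simp [ha']
        · by_cases t2 : t = b
          · subst t2; simp [hb, t1]
          · simp [t1, t2]
    suffices H : ∀ (j : ℕ) (N N' : GX d), (N.1 z \ N'.1 z).card = j →
        (∀ y ∈ Z, N.1 y = N'.1 y) → f N = f N' from fun N N' h => H _ N N' rfl h
    intro j
    induction j with
    | zero =>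
      intro N N' hj h
      rw [card_eq_zero, sdiff_eq_empty_iff_subset] at hj
      refine ih' N N' fun y hy => ?_
      rcases mem_insert.1 hy with rfl | hy
      · exact eq_of_subset_of_card_le hj (by rw [N.card, N'.card])
      · exact h y hy
    | succ j ihj =>
      intro N N' hj h
      have hj' : (N'.1 z \ N.1 z).card = j + 1 := by
        rw [← hj]; exact card_sdiff_comm (by rw [N.card, N'.card])
      obtain ⟨b, hb⟩ : (N.1 z \ N'.1 z).Nonempty := card_pos.1 (by omega)
      obtain ⟨a, ha⟩ : (N'.1 z \ N.1 z).Nonempty := card_pos.1 (by omega)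
      have hb0 := hb
      rw [mem_sdiff] at ha hb
      have res : ∀ t, (N.1 t \ Z).card = (N'.1 t \ Z).card := by
        intro t
        have c1 := card_eq_sdiff_add (N.1 t) Z
        have c2 := card_eq_sdiff_add (N'.1 t) Z
        have c3 : ∑ y ∈ Z, ind (N.1 t) y = ∑ y ∈ Z, ind (N'.1 t) y :=
          Finset.sum_congr rfl (fun y hy => by rw [N.ind_symm t y, h y hy, N'.ind_symm y t])
        rw [N.card] at c1
        rw [N'.card] at c2
        omega
      rcases le_total (N.1 b \ Z).card (N.1 a \ Z).card with hle | hle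
      · obtain ⟨N1, e1, e2, e3⟩ := move N N' a b h ha.1 ha.2 hb.1 hb.2 hle
        rw [← e1]
        refine ihj N1 N' ?_ fun y hy => (e2 y hy).trans (h y hy)
        have : N1.1 z \ N'.1 z = (N.1 z \ N'.1 z).erase b := by
          rw [e3]; ext c
          simp only [mem_sdiff, mem_insert, mem_erase]
          constructor
          · rintro ⟨rfl | h1, h2⟩
            · exact absurd ha.1 h2
            · exact ⟨h1.1, h1.2, h2⟩
          · rintro ⟨h1, h2, h3⟩; exact ⟨Or.inr ⟨h1, h2⟩, h3⟩
        rw [this, card_erase_of_mem hb0, hj]; rfl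
      · obtain ⟨N1, e1, e2, e3⟩ := move N' N b a (fun y hy => (h y hy).symm) hb.1 hb.2 ha.1 ha.2
          (by rwa [← res, ← res])
        rw [← e1]
        refine ihj N N1 ?_ fun y hy => (h y hy).trans (e2 y hy).symm
        have : N.1 z \ N1.1 z = (N.1 z \ N'.1 z).erase b := by
          rw [e3]; ext c
          simp only [mem_sdiff, mem_insert, mem_erase, not_or, not_and]
          constructor
          · rintro ⟨h1, h2, h3⟩
            exact ⟨h2, h1, h3 (fun t => ha.2 (t ▸ h1))⟩
          · rintro ⟨h1, h2, h3⟩; exact ⟨h2, h1, fun _ => h3⟩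
        rw [this, card_erase_of_mem hb0, hj]; rfl

end Crest.Agent.R299
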