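import Crest.Agent.R299.Fiber

set_option autoImplicit false

namespace Crest.Agent.R299

open Finset

variable {V : Type*} [DecidableEq V] [Fintype V] {d : V → ℕ}

/-- The two-vertex heat-bath defect. -/
noncomputable def hb (u v : V) : (GX d → ℝ) →ₗ[ℝ] (GX d → ℝ) :=
  if u = v then 0 else LinearMap.id - avg (out {u, v})

lemma hb_of_ne {u v : V} (h : u ≠ v) (f : GX d → ℝ) : hb u v f = f - avg (out {u, v}) f := by
  simp [hb, h]

lemma hb_self (u : V) (f : GX d → ℝ) : hb u u f = 0 := by simp [hb]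

lemma hb_comm (u v : V) (f : GX d → ℝ) : hb u v f = hb v u f := by
  by_cases h : u = v
  · rw [h]
  · rw [hb_of_ne h, hb_of_ne (Ne.symm h), pair_comm]

lemma hb_symm (u v : V) (f g : GX d → ℝ) : hb u v f ⬝ᵥ g = f ⬝ᵥ hb u v g := by
  by_cases h : u = v
  · rw [h, hb_self, hb_self]; simp
  · rw [hb_of_ne h, hb_of_ne h, sub_dotProduct, dotProduct_sub, avg_symm]

lemma hb_dot (u v : V) (f : GX d → ℝ) : f ⬝ᵥ hb u v f = hb u v f ⬝ᵥ hb u v f := by
  by_cases h : u = v
  · rw [h, hb_self]; simp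
  · rw [hb_of_ne h, sub_dotProduct f, avg_symm, map_sub, avg_avg, sub_self, dotProduct_zero,
      sub_zero]

/-- The total heat-bath operator. -/
noncomputable def HH (d : V → ℕ) : (GX d → ℝ) →ₗ[ℝ] (GX d → ℝ) := ∑ u, ∑ v, hb u v

lemma HH_apply (f : GX d → ℝ) : HH d f = ∑ u, ∑ v, hb u v f := by
  simp [HH, LinearMap.sum_apply]

lemma dot_HH (f g : GX d → ℝ) : f ⬝ᵥ HH d g = ∑ u, ∑ v, f ⬝ᵥ hb u v g := by
  simp only [HH_apply, dotProduct_sum]

lemma HH_dot (f g : GX d → ℝ) : HH d f ⬝ᵥ g = ∑ u, ∑ v, hb u v f ⬝ᵥ g := by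
  simp only [HH_apply, sum_dotProduct]

lemma HH_symm (f g : GX d → ℝ) : HH d f ⬝ᵥ g = f ⬝ᵥ HH d g := by
  simp only [dot_HH, HH_dot, hb_symm]

open Classical in
theorem bochner (f : GX d → ℝ) : 2 * (f ⬝ᵥ HH d f) ≤ HH d f ⬝ᵥ HH d f := by
  let O : V → V → V → ℝ := fun a b c =>
    if a ≠ b ∧ a ≠ c ∧ b ≠ c then hb a b f ⬝ᵥ hb a c f else 0
  let D : V → V → V → V → ℝ := fun u v w x =>
    if Dist u v w x then hb u v f ⬝ᵥ hb w x f else 0
  let X : V → V → V → V → ℝ := fun u v w x =>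
    if Dist u v w x then ∑ N, (oddP u v w x f N - negP u v w x f N) else 0
  have split : ∀ u v, hb u v f ⬝ᵥ HH d f = 2 * (hb u v f ⬝ᵥ hb u v f) +
      2 * (∑ x, O u v x + ∑ x, O v u x) + ∑ w, ∑ x, D u v w x := by
    intro u v
    by_cases huv : u = v
    · subst huv
      have : ∀ w x, ¬ Dist u u w x := fun w x t => t.1 rfl
      simp [hb_self, O, D, this]
    have sp : ∀ φ : V → ℝ, ∑ x, φ x = φ u + φ v + ∑ x ∈ ({u, v} : Finset V)ᶜ, φ x := by
      intro φ
      rw [← Finset.sum_add_sum_compl {u, v}, sum_pair huv]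
    have nm : ∀ x ∈ ({u, v} : Finset V)ᶜ, u ≠ x ∧ v ≠ x := fun x hx => by
      simp only [mem_compl, mem_insert, mem_singleton, not_or] at hx
      exact ⟨Ne.symm hx.1, Ne.symm hx.2⟩
    have o1 : ∑ x, O u v x = ∑ x ∈ ({u, v} : Finset V)ᶜ, hb u v f ⬝ᵥ hb u x f := by
      rw [sp]
      simp only [O, ne_eq, not_true_eq_false, false_and, and_false, if_false, zero_add]
      exact Finset.sum_congr rfl fun x hx => if_pos ⟨huv, nm x hx⟩
    have o2 : ∑ x, O v u x = ∑ x ∈ ({u, v} : Finset V)ᶜ, hb u v f ⬝ᵥ hb v x f := by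
      rw [sp]
      simp only [O, ne_eq, not_true_eq_false, false_and, and_false, if_false, zero_add]
      exact Finset.sum_congr rfl fun x hx => by
        rw [if_pos ⟨Ne.symm huv, (nm x hx).2, (nm x hx).1⟩, hb_comm v u]
    have d1 : ∑ w, ∑ x, D u v w x = ∑ w ∈ ({u, v} : Finset V)ᶜ, ∑ x ∈ ({u, v} : Finset V)ᶜ,
        hb u v f ⬝ᵥ hb w x f := by
      have n1 : ∀ x, D u v u x = 0 := fun x => if_neg fun t => t.2.1 rfl
      have n2 : ∀ x, D u v v x = 0 := fun x => if_neg fun t => t.2.2.2.1 rfl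
      have n3 : ∀ w, D u v w u = 0 := fun x => if_neg fun t => t.2.2.1 rfl
      have n4 : ∀ w, D u v w v = 0 := fun x => if_neg fun t => t.2.2.2.2.1 rfl
      rw [sp]
      simp only [n1, n2, Finset.sum_const_zero, zero_add]
      refine Finset.sum_congr rfl fun w hw => ?_
      rw [sp, n3, n4, zero_add, zero_add]
      refine Finset.sum_congr rfl fun x hx => ?_
      by_cases hwx : w = x
      · subst hwx
        rw [hb_self, dotProduct_zero]
        exact if_neg fun t => t.2.2.2.2.2 rfl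
      · exact if_pos ⟨huv, (nm w hw).1, (nm x hx).1, (nm w hw).2, (nm x hx).2, hwx⟩
    rw [o1, o2, d1, dot_HH, sp]
    have e3 : ∑ w ∈ ({u, v} : Finset V)ᶜ, ∑ x, hb u v f ⬝ᵥ hb w x f =
        ∑ w ∈ ({u, v} : Finset V)ᶜ, (hb u v f ⬝ᵥ hb u w f + hb u v f ⬝ᵥ hb v w f +
          ∑ x ∈ ({u, v} : Finset V)ᶜ, hb u v f ⬝ᵥ hb w x f) :=
      Finset.sum_congr rfl fun w _ => by rw [sp, hb_comm w u, hb_comm w v]
    rw [e3, sp (fun x => hb u v f ⬝ᵥ hb u x f), sp (fun x => hb u v f ⬝ᵥ hb v x f)]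
    simp only [hb_self, dotProduct_zero, Finset.sum_add_distrib, hb_comm v u]
    ring
  have hO : 0 ≤ ∑ a, ∑ b, ∑ c, O a b c := by
    have e1 : ∑ a, ∑ b, ∑ c, O b a c = ∑ a, ∑ b, ∑ c, O a b c := Finset.sum_comm
    have e2 : ∑ a, ∑ b, ∑ c, O c a b = ∑ a, ∑ b, ∑ c, O a b c := by
      rw [Finset.sum_congr rfl (fun a _ => Finset.sum_comm), Finset.sum_comm]
    have : 0 ≤ ∑ a, ∑ b, ∑ c, (O a b c + O b a c + O c a b) := by
      refine Finset.sum_nonneg fun a _ => Finset.sum_nonneg fun b _ =>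
        Finset.sum_nonneg fun c _ => ?_
      by_cases h : a ≠ b ∧ a ≠ c ∧ b ≠ c
      · obtain ⟨h1, h2, h3⟩ := h
        have := triple_nonneg h1 h2 h3 f
        simp only [O]
        rw [if_pos ⟨h1, h2, h3⟩, if_pos ⟨h1.symm, h3, h2⟩, if_pos ⟨h2.symm, h3.symm, h1⟩,
          hb_comm b a, hb_comm c a, hb_comm c b, hb_of_ne h1, hb_of_ne h2, hb_of_ne h3]
        exact this
      · simp only [O]
        rw [if_neg h, if_neg (fun t => h ⟨t.1.symm, t.2.2, t.2.1⟩),
          if_neg (fun t => h ⟨t.2.2, t.1.symm, t.2.1.symm⟩)]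
        simp
    simp only [Finset.sum_add_distrib] at this
    rw [e1, e2] at this
    linarith
  have hD : 0 ≤ ∑ u, ∑ v, ∑ w, ∑ x, D u v w x := by
    have e1 : ∑ u, ∑ v, ∑ w, ∑ x, X w x u v = ∑ u, ∑ v, ∑ w, ∑ x, X u v w x := by
      have s : ∀ φ : V → V → V → V → ℝ, ∑ u, ∑ v, ∑ w, ∑ x, φ u v w x =
          ∑ p : V × V, ∑ q : V × V, φ p.1 p.2 q.1 q.2 := fun φ => by
        simp only [Fintype.sum_prod_type]
      rw [s, s, Finset.sum_comm]
    have e2 : 0 ≤ ∑ u, ∑ v, ∑ w, ∑ x, X u v w x := by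
      refine Finset.sum_nonneg fun u _ => Finset.sum_nonneg fun v _ => ?_
      by_cases huv : u = v
      · subst huv
        have : ∀ w x, ¬ Dist u u w x := fun w x t => t.1 rfl
        simp [X, this]
      · exact fiber_nonneg huv f
    have e3 : ∑ u, ∑ v, ∑ w, ∑ x, (X u v w x + X w x u v) / 2 ≤
        ∑ u, ∑ v, ∑ w, ∑ x, D u v w x := by
      refine Finset.sum_le_sum fun u _ => Finset.sum_le_sum fun v _ =>
        Finset.sum_le_sum fun w _ => Finset.sum_le_sum fun x _ => ?_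
      simp only [X, D]
      by_cases h : Dist u v w x
      · rw [if_pos h, if_pos h, if_pos h.symm, hb_of_ne h.1, hb_of_ne h.2.2.2.2.2]
        exact pair_ineq h f
      · rw [if_neg h, if_neg h, if_neg (fun t => h t.symm)]; simp
    simp only [← Finset.sum_div, Finset.sum_add_distrib] at e3
    rw [e1] at e3
    linarith
  have e1 : ∑ a, ∑ b, ∑ c, O b a c = ∑ a, ∑ b, ∑ c, O a b c := Finset.sum_comm
  rw [HH_dot, dot_HH]
  simp only [split, hb_dot, Finset.sum_add_distrib, ← Finset.mul_sum, mul_add]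
  rw [e1]
  linarith

theorem gap (f : GX d → ℝ) (hf : ∑ N, f N = 0) : 2 * (f ⬝ᵥ f) ≤ f ⬝ᵥ HH d f := by
  have := spectral_quad (HH d) HH_symm (-2) 1 0 f (by
    intro l g hg
    by_cases h1 : 2 ≤ l
    · exact mul_nonneg (by linarith) (sq_nonneg _)
    have b := bochner g
    have e := dot_HH g g
    simp only [hb_dot] at e
    rw [hg] at b e
    simp only [dotProduct_smul, smul_dotProduct, smul_eq_mul] at b e
    have gg := dot_self_nonneg g
    have nn : ∀ u v, 0 ≤ hb u v g ⬝ᵥ hb u v g := fun u v => dot_self_nonneg _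
    have l0 : l * (g ⬝ᵥ g) ≤ 0 := by
      by_contra t
      push Not at t h1
      nlinarith
    have z : ∑ u, ∑ v, hb u v g ⬝ᵥ hb u v g = 0 :=
      le_antisymm (e ▸ l0) (Finset.sum_nonneg fun u _ => Finset.sum_nonneg fun v _ => nn u v)
    have c := connected g (by
      intro u v huv N N' h
      have z1 := (Finset.sum_eq_zero_iff_of_nonneg
        (fun u _ => Finset.sum_nonneg fun v _ => nn u v)).1 z u (mem_univ _)
      have z2 := (Finset.sum_eq_zero_iff_of_nonneg (fun v _ => nn u v)).1 z1 v (mem_univ _)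
      rw [dotProduct_self_eq_zero, hb_of_ne huv, sub_eq_zero] at z2
      rw [z2]
      exact avg_meas g h)
    have : g ⬝ᵥ f = 0 := by
      rcases isEmpty_or_nonempty (GX d) with h | ⟨⟨N0⟩⟩
      · simp [dotProduct]
      · simp only [dotProduct, c _ N0, ← Finset.mul_sum, hf, mul_zero]
    simp [this])
  linarith

open Classical in
theorem gap_switch (f : GX d → ℝ) (hf : ∑ N, f N = 0) :
    2 * (f ⬝ᵥ f) ≤ ∑ u, ∑ v, ∑ N, ∑ w, ∑ x,
      if Avail u v w x N then (f N - f (tau u v w x N)) ^ 2 else 0 := by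
  refine (gap f hf).trans ?_
  rw [dot_HH]
  refine Finset.sum_le_sum fun u _ => Finset.sum_le_sum fun v _ => ?_
  rw [hb_dot]
  by_cases huv : u = v
  · rw [huv, hb_self, dotProduct_zero]
    exact Finset.sum_nonneg fun _ _ => Finset.sum_nonneg fun _ _ => Finset.sum_nonneg fun _ _ => by
      split_ifs <;> positivity
  · rw [hb_of_ne huv]
    exact fiber_poincare huv f

end Crest.Agent.R299
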