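import Crest.Agent.R299.Johnson

set_option autoImplicit false

namespace Crest.Agent.R299

open Finset

section Three

variable {ι : Type*} [DecidableEq ι] [Fintype ι]

lemma coupling {α β κ : Type*} (Φ : Finset α) (Ψ : Finset β) (I : β → Finset κ) (T : κ → β → α)
    (d d' : ℕ) (hI : ∀ y ∈ Ψ, (I y).card = d') (hd' : 0 < d')
    (hsum : ∀ θ : α → ℝ, ∑ y ∈ Ψ, ∑ r ∈ I y, θ (T r y) = d * ∑ x ∈ Φ, θ x)
    (φ : α → ℝ) (ψ : β → ℝ) (δ : ℝ) (hδ : ∀ y ∈ Ψ, ∀ r ∈ I y, |ψ y - φ (T r y)| ≤ δ) :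
    |∑ y ∈ Ψ, (ψ y - mean Φ φ)| ≤ δ * Ψ.card := by
  have h1 := hsum φ
  have h2 := hsum (fun _ => 1)
  rw [sum_eq_card_mul_mean Φ φ] at h1
  have h3 : ∀ c : β → ℝ, ∑ y ∈ Ψ, ∑ _r ∈ I y, c y = d' * ∑ y ∈ Ψ, c y := by
    intro c
    rw [Finset.mul_sum]
    exact Finset.sum_congr rfl fun y hy => by rw [Finset.sum_const, hI y hy, nsmul_eq_mul]
  rw [h3] at h2
  simp only [Finset.sum_const, nsmul_eq_mul, mul_one] at h2
  have h4 : (d' : ℝ) * ∑ y ∈ Ψ, (ψ y - mean Φ φ) = ∑ y ∈ Ψ, ∑ r ∈ I y, (ψ y - φ (T r y)) := by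
    simp only [Finset.sum_sub_distrib]
    rw [h3, h1, Finset.sum_const, nsmul_eq_mul, mul_sub, ← mul_assoc, h2, mul_assoc]
  have h5 : |∑ y ∈ Ψ, ∑ r ∈ I y, (ψ y - φ (T r y))| ≤ d' * (δ * Ψ.card) := by
    refine (Finset.abs_sum_le_sum_abs _ _).trans ?_
    refine (Finset.sum_le_sum fun y hy => (Finset.abs_sum_le_sum_abs _ _).trans
      (Finset.sum_le_sum (hδ y hy))).trans (le_of_eq ?_)
    rw [h3, Finset.sum_const, nsmul_eq_mul, mul_comm δ]
  have hd : (0 : ℝ) < d' := by exact_mod_cast hd'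
  rw [← h4, abs_mul, abs_of_pos hd] at h5
  exact le_of_mul_le_mul_left h5 hd

lemma coupling_bij {α β : Type*} (Φ : Finset α) (Ψ : Finset β) (T : β → α)
    (hsum : ∀ θ : α → ℝ, ∑ y ∈ Ψ, θ (T y) = ∑ x ∈ Φ, θ x)
    (φ : α → ℝ) (ψ : β → ℝ) (δ : ℝ) (hδ : ∀ y ∈ Ψ, |ψ y - φ (T y)| ≤ δ) :
    |∑ y ∈ Ψ, (ψ y - mean Φ φ)| ≤ δ * Ψ.card :=
  coupling Φ Ψ (fun _ => ({()} : Finset Unit)) (fun _ y => T y) 1 1 (fun _ _ => rfl) one_pos
    (fun θ => by simpa using hsum θ) φ ψ δ (fun y hy _ _ => hδ y hy)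

lemma abs_mean_sub_le {β : Type*} (Ψ : Finset β) (hΨ : Ψ.Nonempty) (ψ : β → ℝ) (m δ : ℝ)
    (h : |∑ y ∈ Ψ, (ψ y - m)| ≤ δ * Ψ.card) : |mean Ψ ψ - m| ≤ δ := by
  have hc : (0 : ℝ) < Ψ.card := by exact_mod_cast hΨ.card_pos
  rw [Finset.sum_sub_distrib, sum_eq_card_mul_mean, Finset.sum_const, nsmul_eq_mul, ← mul_sub,
    abs_mul, abs_of_pos hc, mul_comm] at h
  exact le_of_mul_le_mul_right h hc

/-- Indicator of membership, as a natural number. -/
def ind (R : Finset ι) (c : ι) : ℕ := if c ∈ R then 1 else 0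

omit [Fintype ι] in
lemma ind_of_mem {R : Finset ι} {c : ι} (h : c ∈ R) : ind R c = 1 := by simp [ind, h]

omit [Fintype ι] in
lemma ind_of_notMem {R : Finset ι} {c : ι} (h : c ∉ R) : ind R c = 0 := by simp [ind, h]

omit [Fintype ι] in
lemma ind_le (R : Finset ι) (c : ι) : ind R c ≤ 1 := by unfold ind; split_ifs <;> simp

omit [Fintype ι] in
lemma mem_iff_ind {R : Finset ι} {c : ι} : c ∈ R ↔ ind R c = 1 := by
  unfold ind; split_ifs with h <;> simp [h]

omit [Fintype ι] in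
lemma notMem_iff_ind {R : Finset ι} {c : ι} : c ∉ R ↔ ind R c = 0 := by
  unfold ind; split_ifs with h <;> simp [h]

omit [Fintype ι] in
lemma ind_sw (x y : ι) (S : Finset ι) (c : ι) : ind (sw x y S) c = ind S (Equiv.swap x y c) := by
  simp only [ind, mem_sw]

/-- Three rows with prescribed sizes and column sums. -/
def St (col : ι → ℕ) (r1 r2 r3 : ℕ) (R1 R2 R3 : Finset ι) : Prop :=
  R1.card = r1 ∧ R2.card = r2 ∧ R3.card = r3 ∧ ∀ c, ind R1 c + ind R2 c + ind R3 c = col c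

omit [Fintype ι] in
lemma St.swap23 {col : ι → ℕ} {r1 r2 r3 : ℕ} {R1 R2 R3 : Finset ι} (h : St col r1 r2 r3 R1 R2 R3) :
    St col r1 r3 r2 R1 R3 R2 :=
  ⟨h.1, h.2.2.1, h.2.1, fun c => by have := h.2.2.2 c; omega⟩

omit [Fintype ι] in
lemma St.swap12 {col : ι → ℕ} {r1 r2 r3 : ℕ} {R1 R2 R3 : Finset ι} (h : St col r1 r2 r3 R1 R2 R3) :
    St col r2 r1 r3 R2 R1 R3 :=
  ⟨h.2.1, h.1, h.2.2.1, fun c => by have := h.2.2.2 c; omega⟩

/-- The completions of a first row. -/
noncomputable def fib (col : ι → ℕ) (r1 r2 r3 : ℕ) (R : Finset ι) : Finset (Finset ι × Finset ι) := by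
  classical exact univ.filter fun P => St col r1 r2 r3 R P.1 P.2

lemma mem_fib {col : ι → ℕ} {r1 r2 r3 : ℕ} {R : Finset ι} {P : Finset ι × Finset ι} :
    P ∈ fib col r1 r2 r3 R ↔ St col r1 r2 r3 R P.1 P.2 := by
  classical
  simp [fib]

/-- A first row that can be completed. -/
def Feas (col : ι → ℕ) (r1 r2 r3 : ℕ) (R : Finset ι) : Prop :=
  ∃ R2 R3, St col r1 r2 r3 R R2 R3

omit [Fintype ι] in
lemma Feas.swap {col : ι → ℕ} {r1 r2 r3 : ℕ} {R : Finset ι} (h : Feas col r1 r2 r3 R) :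
    Feas col r1 r3 r2 R := by
  obtain ⟨R2, R3, h⟩ := h
  exact ⟨R3, R2, h.swap23⟩

/-- Lipschitz bounds along exchanges. -/
def Bd (col : ι → ℕ) (r1 r2 r3 : ℕ) (g : Finset ι → ℝ) (a b : ℝ) : Prop :=
  ∀ R p q, Feas col r1 r2 r3 R → Feas col r1 r2 r3 (sw p q R) →
    |g R - g (sw p q R)| ≤ b ∧ (col p = col q → |g R - g (sw p q R)| ≤ a)

omit [Fintype ι] in
lemma Bd.swap {col : ι → ℕ} {r1 r2 r3 : ℕ} {g : Finset ι → ℝ} {a b : ℝ}
    (h : Bd col r1 r2 r3 g a b) : Bd col r1 r3 r2 g a b :=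
  fun R p q h1 h2 => h R p q h1.swap h2.swap

omit [Fintype ι] in
lemma St.sw_same {col : ι → ℕ} {r1 r2 r3 : ℕ} {R1 R2 R3 : Finset ι} {p q : ι}
    (h : St col r1 r2 r3 R1 R2 R3) (hpq : col p = col q) :
    St col r1 r2 r3 (sw p q R1) (sw p q R2) (sw p q R3) := by
  refine ⟨by rw [card_sw, h.1], by rw [card_sw, h.2.1], by rw [card_sw, h.2.2.1], fun c => ?_⟩
  rw [ind_sw, ind_sw, ind_sw, h.2.2.2]
  by_cases h1 : c = p
  · subst h1; simp [hpq]
  · by_cases h2 : c = q
    · subst h2; simp [hpq]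
    · rw [Equiv.swap_apply_of_ne_of_ne h1 h2]

lemma contract_same {col : ι → ℕ} {r1 r2 r3 : ℕ} {g2 g3 : Finset ι → ℝ} {a b : ℝ}
    (h2 : Bd col r2 r1 r3 g2 a b) (h3 : Bd col r3 r1 r2 g3 a b) {R : Finset ι} {p q : ι}
    (hR : Feas col r1 r2 r3 R) (hp : p ∈ R) (hq : q ∉ R) (hpq : col p = col q) :
    |mean (fib col r1 r2 r3 R) (fun P => g2 P.1 + g3 P.2) -
      mean (fib col r1 r2 r3 (sw p q R)) (fun P => g2 P.1 + g3 P.2)| ≤ a := by
  obtain ⟨R2, R3, hst⟩ := hR
  apply abs_mean_sub_le _ ⟨(R2, R3), mem_fib.2 hst⟩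
  apply coupling_bij _ _ (fun P => (sw p q P.1, sw p q P.2))
  · intro θ
    refine Finset.sum_bij' (fun P _ => (sw p q P.1, sw p q P.2))
      (fun P _ => (sw p q P.1, sw p q P.2)) ?_ ?_ ?_ ?_ ?_
    · intro P hP
      exact mem_fib.2 ((mem_fib.1 hP).sw_same hpq)
    · intro P hP
      have := (mem_fib.1 hP).sw_same hpq
      rw [sw_sw] at this
      exact mem_fib.2 this
    · intro P _; simp [sw_sw]
    · intro P _; simp [sw_sw]
    · intro P _; rfl
  · intro P hP
    have hs := mem_fib.1 hP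
    have hs' := hs.sw_same hpq
    have b2 := (h2 P.1 p q ⟨_, _, hs.swap12⟩ ⟨_, _, hs'.swap12⟩).2 hpq
    have b3 := (h3 P.2 p q ⟨_, _, hs.swap23.swap12⟩ ⟨_, _, hs'.swap23.swap12⟩).2 hpq
    have e1 := hs.2.2.2 p
    have e2 := hs.2.2.2 q
    rw [ind_of_mem hp] at e1
    rw [ind_of_notMem hq] at e2
    have l1 := ind_le P.1 p
    have l2 := ind_le P.1 q
    have l3 := ind_le P.2 p
    have l4 := ind_le P.2 q
    by_cases hc : ind P.1 p = ind P.1 q
    · have : sw p q P.1 = P.1 := sw_eq_self (by rw [mem_iff_ind, mem_iff_ind, hc])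
      simp only [this]
      rw [add_sub_add_left_eq_sub]; exact b3
    · have hc' : ind P.2 p = ind P.2 q := by omega
      have : sw p q P.2 = P.2 := sw_eq_self (by rw [mem_iff_ind, mem_iff_ind, hc'])
      simp only [this]
      rw [add_sub_add_right_eq_sub]; exact b2

omit [Fintype ι] in
/-- The deterministic part of the cross coupling. -/
lemma St.cross_one {col : ι → ℕ} {r1 r2 r3 : ℕ} {R R2 R3 : Finset ι} {p q : ι}
    (h : St col r1 r2 r3 R R2 R3) (h1 : ind R p + ind R3 p = ind R q + ind R3 q) :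
    St col r1 r2 r3 (sw p q R) R2 (sw p q R3) := by
  refine ⟨by rw [card_sw, h.1], h.2.1, by rw [card_sw, h.2.2.1], fun c => ?_⟩
  rw [ind_sw, ind_sw]
  have := h.2.2.2 c
  by_cases h1 : c = p
  · subst h1; simp only [Equiv.swap_apply_left]; omega
  · by_cases h2 : c = q
    · subst h2; simp only [Equiv.swap_apply_right]; omega
    · rw [Equiv.swap_apply_of_ne_of_ne h1 h2]; exact this

omit [Fintype ι] in
/-- The random part of the cross coupling. -/
lemma St.cross_two {col : ι → ℕ} {r1 r2 r3 : ℕ} {R R2 R3 : Finset ι} {p q r : ι}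
    (h : St col r1 r2 r3 R R2 R3) (hpq : p ≠ q) (hrp : r ≠ p) (hrq : r ≠ q)
    (h1 : ind R p + ind R2 p = ind R q + ind R2 r)
    (h2 : ind R q + ind R3 q = ind R p + ind R3 r)
    (h3 : ind R2 r + ind R3 r = ind R2 p + ind R3 q) :
    St col r1 r2 r3 (sw p q R) (sw p r R2) (sw r q R3) := by
  refine ⟨by rw [card_sw, h.1], by rw [card_sw, h.2.1], by rw [card_sw, h.2.2.1], fun c => ?_⟩
  rw [ind_sw, ind_sw, ind_sw]
  have := h.2.2.2 c
  by_cases c1 : c = p
  · subst c1
    rw [Equiv.swap_apply_left, Equiv.swap_apply_left,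
      Equiv.swap_apply_of_ne_of_ne hrp.symm hpq]
    omega
  · by_cases c2 : c = q
    · subst c2
      rw [Equiv.swap_apply_right, Equiv.swap_apply_right,
        Equiv.swap_apply_of_ne_of_ne hpq.symm hrq.symm]
      omega
    · by_cases c3 : c = r
      · subst c3
        rw [Equiv.swap_apply_right, Equiv.swap_apply_left, Equiv.swap_apply_of_ne_of_ne c1 c2]
        omega
      · rw [Equiv.swap_apply_of_ne_of_ne c1 c2, Equiv.swap_apply_of_ne_of_ne c1 c3,
          Equiv.swap_apply_of_ne_of_ne c3 c2]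
        exact this

lemma St.inter_eq {col : ι → ℕ} {r1 r2 r3 : ℕ} {R R2 R3 : Finset ι}
    (h : St col r1 r2 r3 R R2 R3) :
    R2 ∩ R3 = univ.filter fun c => col c = ind R c + 2 := by
  ext c
  have := h.2.2.2 c
  have l1 := ind_le R2 c
  have l2 := ind_le R3 c
  rw [mem_inter, mem_filter, mem_iff_ind (R := R2), mem_iff_ind (R := R3)]
  simp only [mem_univ, true_and]
  omega

lemma cross_half {col : ι → ℕ} {r1 r2 r3 : ℕ} {g2 g3 : Finset ι → ℝ} {a b : ℝ} (ha : 0 ≤ a)
    (h2 : Bd col r2 r1 r3 g2 a b) (h3 : Bd col r3 r1 r2 g3 a b) {R : Finset ι} {p q : ι}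
    (hR : Feas col r1 r2 r3 R) (hp : p ∈ R) (hq : q ∉ R) (cp : col p = 1) (cq : col q = 2) :
    |∑ P ∈ (fib col r1 r2 r3 (sw p q R)).filter (fun P => q ∈ P.1),
      ((g2 P.1 + g3 P.2) - mean (fib col r1 r2 r3 R) (fun P => g2 P.1 + g3 P.2))| ≤
      (a + b) * ((fib col r1 r2 r3 (sw p q R)).filter (fun P => q ∈ P.1)).card := by
  have hpq : p ≠ q := fun h => hq (h ▸ hp)
  have ip : ind R p = 1 := ind_of_mem hp
  have iq : ind R q = 0 := ind_of_notMem hq
  have ip' : ind (sw p q R) p = 0 := by rw [ind_sw, Equiv.swap_apply_left, iq]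
  have iq' : ind (sw p q R) q = 1 := by rw [ind_sw, Equiv.swap_apply_right, ip]
  set Φ := fib col r1 r2 r3 R with hΦ
  set Ψ := (fib col r1 r2 r3 (sw p q R)).filter (fun P => q ∈ P.1) with hΨ
  set m := mean Φ (fun P => g2 P.1 + g3 P.2) with hm
  have hx : ∀ x ∈ Φ, ind x.1 p = 0 ∧ ind x.2 p = 0 ∧ ind x.1 q = 1 ∧ ind x.2 q = 1 := by
    intro x hx
    have hs := mem_fib.1 hx
    have e1 := hs.2.2.2 p
    have e2 := hs.2.2.2 q
    have l1 := ind_le x.1 q
    have l2 := ind_le x.2 q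
    omega
  have hy : ∀ y ∈ Ψ, St col r1 r2 r3 (sw p q R) y.1 y.2 ∧ ind y.1 q = 1 ∧ ind y.2 q = 0 ∧
      ind y.1 p + ind y.2 p = 1 := by
    intro y hy
    rw [hΨ, mem_filter] at hy
    have hs := mem_fib.1 hy.1
    have e1 := hs.2.2.2 p
    have e2 := hs.2.2.2 q
    have := ind_of_mem hy.2
    exact ⟨hs, by omega⟩
  rw [← Finset.sum_filter_add_sum_filter_not Ψ (fun P => p ∈ P.1),
    ← Finset.card_filter_add_card_filter_not (s := Ψ) (fun P => p ∈ P.1), Nat.cast_add, mul_add]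
  refine (abs_add_le _ _).trans (add_le_add ?_ ?_)
  · obtain ⟨R2, R3, hst⟩ := hR
    set B := univ.filter fun c => col c = ind R c + 2 with hB
    set B' := univ.filter fun c => col c = ind (sw p q R) c + 2 with hB'
    have hlt : B'.card < r3 := by
      have s1 : insert q B' ⊆ R3 := by
        intro c hc
        have : c ∈ R2 ∩ R3 := by
          rw [hst.inter_eq, mem_filter]
          refine ⟨mem_univ _, ?_⟩
          rcases mem_insert.1 hc with rfl | hc
          · omega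
          · have hc' := (mem_filter.1 hc).2
            have c1 : c ≠ p := by rintro rfl; omega
            have c2 : c ≠ q := by rintro rfl; omega
            rwa [ind_sw, Equiv.swap_apply_of_ne_of_ne c1 c2] at hc'
        exact (mem_inter.1 this).2
      have s2 : q ∉ B' := by
        intro hc
        have := (mem_filter.1 hc).2
        omega
      have := card_le_card s1
      rw [card_insert_of_notMem s2, hst.2.2.1] at this
      omega
    apply coupling Φ _ (fun y => y.2 \ y.1) (fun r y => (sw p r y.1, sw r q y.2))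
      (r2 - B.card) (r3 - B'.card) _ (by omega)
    · intro θ
      have e1 : ((r2 - B.card : ℕ) : ℝ) * ∑ x ∈ Φ, θ x = ∑ x ∈ Φ, ∑ _r ∈ x.1 \ x.2, θ x := by
        rw [Finset.mul_sum]
        refine Finset.sum_congr rfl fun x hx => ?_
        have hs := mem_fib.1 hx
        rw [Finset.sum_const, nsmul_eq_mul, card_sdiff, inter_comm, hs.inter_eq, hs.2.1]
      rw [e1]
      rw [Finset.sum_comm' (t' := univ)
        (s' := fun r => (Ψ.filter (fun P => p ∈ P.1)).filter (fun y => r ∈ y.2 \ y.1))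
        (by intro y r; simp only [mem_filter, mem_univ, and_true])]
      rw [Finset.sum_comm' (s := Φ) (t' := univ)
        (s' := fun r => Φ.filter (fun x => r ∈ x.1 \ x.2))
        (by intro y r; simp only [mem_filter, mem_univ, and_true])]
      refine Finset.sum_congr rfl fun r _ => ?_
      refine Finset.sum_bij' (fun y _ => (sw p r y.1, sw r q y.2))
        (fun y _ => (sw p r y.1, sw r q y.2)) ?_ ?_ ?_ ?_ ?_
      · intro y hy'
        simp only [mem_filter, mem_sdiff] at hy'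
        obtain ⟨⟨hy1, hy2⟩, hy3, hy4⟩ := hy'
        obtain ⟨hs, f1, f2, f3⟩ := hy y hy1
        have f4 := ind_of_mem hy2
        have f5 := ind_of_mem hy3
        have f6 := ind_of_notMem hy4
        have hrp : r ≠ p := by rintro rfl; omega
        have hrq : r ≠ q := by rintro rfl; omega
        have := hs.cross_two hpq hrp hrq (by omega) (by omega) (by omega)
        rw [sw_sw] at this
        simp only [mem_filter, mem_sdiff, mem_sw, Equiv.swap_apply_right, Equiv.swap_apply_left]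
        exact ⟨mem_fib.2 this, hy2, notMem_iff_ind.2 f2⟩
      · intro x hx'
        simp only [mem_filter, mem_sdiff] at hx'
        obtain ⟨hx1, hx3, hx4⟩ := hx'
        obtain ⟨f1, f2, f3, f4⟩ := hx x hx1
        have f5 := ind_of_mem hx3
        have f6 := ind_of_notMem hx4
        have hrp : r ≠ p := by rintro rfl; omega
        have hrq : r ≠ q := by rintro rfl; omega
        have := (mem_fib.1 hx1).cross_two hpq hrp hrq (by omega) (by omega) (by omega)
        simp only [hΨ, mem_filter, mem_sdiff, mem_sw, Equiv.swap_apply_right,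
          Equiv.swap_apply_left, Equiv.swap_apply_of_ne_of_ne hpq.symm hrq.symm]
        exact ⟨⟨⟨mem_fib.2 this, mem_iff_ind.2 f3⟩, hx3⟩, mem_iff_ind.2 f4, notMem_iff_ind.2 f1⟩
      · intro y _; simp [sw_sw]
      · intro y _; simp [sw_sw]
      · intro y _; rfl
    · intro y hy' r hr
      simp only [mem_filter, mem_sdiff] at hy' hr
      obtain ⟨hy1, hy2⟩ := hy'
      obtain ⟨hy3, hy4⟩ := hr
      obtain ⟨hs, f1, f2, f3⟩ := hy y hy1
      have f4 := ind_of_mem hy2
      have f5 := ind_of_mem hy3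
      have f6 := ind_of_notMem hy4
      have hrp : r ≠ p := by rintro rfl; omega
      have hrq : r ≠ q := by rintro rfl; omega
      have hs' := hs.cross_two hpq hrp hrq (by omega) (by omega) (by omega)
      have b2 := h2 y.1 p r ⟨_, _, hs.swap12⟩ ⟨_, _, hs'.swap12⟩
      have b3 := h3 y.2 r q ⟨_, _, hs.swap23.swap12⟩ ⟨_, _, hs'.swap23.swap12⟩
      have e := hs.2.2.2 r
      have l := ind_le (sw p q R) r
      have tri : |g2 y.1 + g3 y.2 - (g2 (sw p r y.1) + g3 (sw r q y.2))| ≤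
          |g2 y.1 - g2 (sw p r y.1)| + |g3 y.2 - g3 (sw r q y.2)| := by
        refine le_trans (le_of_eq ?_) (abs_add_le _ _)
        congr 1; ring
      refine tri.trans ?_
      by_cases hc : col r = 1
      · exact add_le_add (b2.2 (by omega)) b3.1
      · rw [add_comm a b]
        exact add_le_add b2.1 (b3.2 (by omega))
    · intro y hy'
      have hs := (hy y (mem_filter.1 hy').1).1
      rw [card_sdiff, hs.inter_eq, hs.2.2.1]
  · apply coupling_bij Φ _ (fun y => (y.1, sw p q y.2))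
    · intro θ
      refine Finset.sum_bij' (fun y _ => (y.1, sw p q y.2))
        (fun y _ => (y.1, sw p q y.2)) ?_ ?_ ?_ ?_ ?_
      · intro y hy'
        simp only [mem_filter] at hy'
        obtain ⟨hs, f1, f2, f3⟩ := hy y hy'.1
        have f4 := ind_of_notMem hy'.2
        have := hs.cross_one (p := p) (q := q) (by omega)
        rw [sw_sw] at this
        exact mem_fib.2 this
      · intro x hx'
        obtain ⟨f1, f2, f3, f4⟩ := hx x hx'
        have := (mem_fib.1 hx').cross_one (p := p) (q := q) (by omega)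
        simp only [hΨ, mem_filter]
        exact ⟨⟨mem_fib.2 this, mem_iff_ind.2 f3⟩, notMem_iff_ind.2 f1⟩
      · intro y _; simp [sw_sw]
      · intro y _; simp [sw_sw]
      · intro y _; rfl
    · intro y hy'
      simp only [mem_filter] at hy'
      obtain ⟨hs, f1, f2, f3⟩ := hy y hy'.1
      have f4 := ind_of_notMem hy'.2
      have hs' := hs.cross_one (p := p) (q := q) (by omega)
      have b3 := h3 y.2 p q ⟨_, _, hs.swap23.swap12⟩ ⟨_, _, hs'.swap23.swap12⟩
      simp only [add_sub_add_left_eq_sub]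
      linarith [b3.1]

lemma sum_fib_swap {col : ι → ℕ} {r1 r2 r3 : ℕ} (R : Finset ι)
    (θ : Finset ι × Finset ι → ℝ) :
    ∑ P ∈ fib col r1 r3 r2 R, θ P.swap = ∑ P ∈ fib col r1 r2 r3 R, θ P :=
  Finset.sum_bij' (fun P _ => P.swap) (fun P _ => P.swap)
    (fun _ hP => mem_fib.2 (mem_fib.1 hP).swap23) (fun _ hP => mem_fib.2 (mem_fib.1 hP).swap23)
    (fun _ _ => rfl) (fun _ _ => rfl) (fun _ _ => rfl)

lemma mean_fib_swap {col : ι → ℕ} {r1 r2 r3 : ℕ} (R : Finset ι)
    (θ : Finset ι × Finset ι → ℝ) :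
    mean (fib col r1 r3 r2 R) (fun P => θ P.swap) = mean (fib col r1 r2 r3 R) θ := by
  unfold mean
  rw [sum_fib_swap]
  have := sum_fib_swap (col := col) (r1 := r1) (r2 := r2) (r3 := r3) R (fun _ => 1)
  simp only [Finset.sum_const, nsmul_eq_mul, mul_one] at this
  rw [this]

lemma contract_cross {col : ι → ℕ} {r1 r2 r3 : ℕ} {g2 g3 : Finset ι → ℝ} {a b : ℝ} (ha : 0 ≤ a)
    (h2 : Bd col r2 r1 r3 g2 a b) (h3 : Bd col r3 r1 r2 g3 a b) {R : Finset ι} {p q : ι}
    (hR : Feas col r1 r2 r3 R) (hR' : Feas col r1 r2 r3 (sw p q R)) (hp : p ∈ R) (hq : q ∉ R)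
    (cp : col p = 1) (cq : col q = 2) :
    |mean (fib col r1 r2 r3 R) (fun P => g2 P.1 + g3 P.2) -
      mean (fib col r1 r2 r3 (sw p q R)) (fun P => g2 P.1 + g3 P.2)| ≤ a + b := by
  rw [abs_sub_comm]
  obtain ⟨R2, R3, hst⟩ := hR'
  apply abs_mean_sub_le _ ⟨(R2, R3), mem_fib.2 hst⟩
  have i1 := cross_half ha h2 h3 hR hp hq cp cq
  have i2 := cross_half ha h3 h2 hR.swap hp hq cp cq
  have iq' : ind (sw p q R) q = 1 := by rw [ind_sw, Equiv.swap_apply_right, ind_of_mem hp]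
  set Ψ := fib col r1 r2 r3 (sw p q R) with hΨ
  set m := mean (fib col r1 r2 r3 R) (fun P => g2 P.1 + g3 P.2) with hm
  have em : mean (fib col r1 r3 r2 R) (fun P => g3 P.1 + g2 P.2) = m := by
    rw [hm, ← mean_fib_swap]
    congr 1; funext P; simp [add_comm]
  have key : ∀ θ : Finset ι × Finset ι → ℝ,
      ∑ P ∈ (fib col r1 r3 r2 (sw p q R)).filter (fun P => q ∈ P.1), θ P.swap =
        ∑ P ∈ Ψ.filter (fun P => ¬ q ∈ P.1), θ P := by
    intro θ
    rw [Finset.sum_filter, Finset.sum_filter, ← sum_fib_swap]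
    refine Finset.sum_congr rfl fun P hP => ?_
    have e := (mem_fib.1 hP).2.2.2 q
    have : q ∈ P.1 ↔ q ∉ P.swap.1 := by
      rw [Prod.fst_swap, mem_iff_ind, notMem_iff_ind]; omega
    simp only [this, not_not, Prod.swap_swap]
  have k1 := key (fun P => g2 P.1 + g3 P.2 - m)
  have k2 := key (fun _ => 1)
  simp only [Finset.sum_const, nsmul_eq_mul, mul_one] at k2
  rw [em, k2] at i2
  simp only [Prod.fst_swap, Prod.snd_swap] at k1
  simp only [add_comm (g3 _) (g2 _)] at i2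
  rw [k1] at i2
  rw [← Finset.sum_filter_add_sum_filter_not Ψ (fun P => q ∈ P.1),
    ← Finset.card_filter_add_card_filter_not (s := Ψ) (fun P => q ∈ P.1), Nat.cast_add, mul_add]
  exact (abs_add_le _ _).trans (add_le_add i1 i2)

lemma contract {col : ι → ℕ} {r1 r2 r3 : ℕ} {g1 g2 g3 : Finset ι → ℝ} {a b μ : ℝ} (ha : 0 ≤ a)
    (hb : 0 ≤ b) (hμ : 0 < μ)
    (h2 : Bd col r2 r1 r3 g2 a b) (h3 : Bd col r3 r1 r2 g3 a b)
    (e1 : ∀ R, Feas col r1 r2 r3 R →
      mean (fib col r1 r2 r3 R) (fun P => g2 P.1 + g3 P.2) = μ * g1 R) :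
    Bd col r1 r2 r3 g1 (a / μ) ((a + b) / μ) := by
  have main : ∀ R p q, Feas col r1 r2 r3 R → Feas col r1 r2 r3 (sw p q R) → p ∈ R → q ∉ R →
      col p ≤ col q →
      |g1 R - g1 (sw p q R)| ≤ (a + b) / μ ∧ (col p = col q → |g1 R - g1 (sw p q R)| ≤ a / μ) := by
    intro R p q hR hR' hp hq hle
    have e : |g1 R - g1 (sw p q R)| * μ = |mean (fib col r1 r2 r3 R) (fun P => g2 P.1 + g3 P.2) -
        mean (fib col r1 r2 r3 (sw p q R)) (fun P => g2 P.1 + g3 P.2)| := by
      rw [e1 R hR, e1 _ hR', ← mul_sub, abs_mul, abs_of_pos hμ, mul_comm]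
    rw [le_div_iff₀ hμ, le_div_iff₀ hμ, e]
    refine ⟨?_, fun h => contract_same h2 h3 hR hp hq h⟩
    by_cases h : col p = col q
    · linarith [contract_same h2 h3 hR hp hq h]
    · obtain ⟨R2, R3, hst⟩ := id hR
      have t1 := hst.2.2.2 p
      have t2 := hst.2.2.2 q
      rw [ind_of_mem hp] at t1
      rw [ind_of_notMem hq] at t2
      have l1 := ind_le R2 q
      have l2 := ind_le R3 q
      exact contract_cross ha h2 h3 hR hR' hp hq (by omega) (by omega)
  have main2 : ∀ R p q, Feas col r1 r2 r3 R → Feas col r1 r2 r3 (sw p q R) → p ∈ R → q ∉ R →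
      |g1 R - g1 (sw p q R)| ≤ (a + b) / μ ∧ (col p = col q → |g1 R - g1 (sw p q R)| ≤ a / μ) := by
    intro R p q hR hR' hp hq
    rcases le_total (col p) (col q) with h | h
    · exact main R p q hR hR' hp hq h
    · have := main (sw p q R) q p hR' (by rwa [sw_comm q p, sw_sw])
        (by rwa [mem_sw, Equiv.swap_apply_right]) (by rwa [mem_sw, Equiv.swap_apply_left]) h
      rw [sw_comm q p, sw_sw, abs_sub_comm] at this
      exact ⟨this.1, fun h => this.2 h.symm⟩
  intro R p q hR hR'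
  by_cases hpq : p ∈ R ↔ q ∈ R
  · rw [sw_eq_self hpq, sub_self, abs_zero]
    exact ⟨by positivity, fun _ => by positivity⟩
  · by_cases hp : p ∈ R
    · exact main2 R p q hR hR' hp (fun hq => hpq ⟨fun _ => hq, fun _ => hp⟩)
    · have hq : q ∈ R := by by_contra hq; exact hpq ⟨fun h => absurd h hp, fun h => absurd h hq⟩
      rw [sw_comm] at hR' ⊢
      have := main2 R q p hR hR' hq hp
      exact ⟨this.1, fun h => this.2 h.symm⟩

omit [Fintype ι] in
lemma Bd.const {col : ι → ℕ} {r1 r2 r3 : ℕ} {g : Finset ι → ℝ} (h : Bd col r1 r2 r3 g 0 0) :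
    ∀ (n : ℕ) (R R' : Finset ι), (R \ R').card = n → Feas col r1 r2 r3 R → Feas col r1 r2 r3 R' →
      g R = g R' := by
  intro n
  induction n with
  | zero =>
    intro R R' hn hR hR'
    obtain ⟨_, _, h1⟩ := hR
    obtain ⟨_, _, h2⟩ := hR'
    rw [card_eq_zero, sdiff_eq_empty_iff_subset] at hn
    rw [eq_of_subset_of_card_le hn (by rw [h1.1, h2.1])]
  | succ n ih =>
    have step : ∀ R p q, Feas col r1 r2 r3 R → p ∈ R → q ∉ R → col p ≤ col q →
        (∃ R', Feas col r1 r2 r3 R' ∧ p ∉ R') → Feas col r1 r2 r3 (sw p q R) := by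
      rintro R p q ⟨R2, R3, hst⟩ hp hq hle -
      by_cases hc : col p = col q
      · exact ⟨_, _, hst.sw_same hc⟩
      · have t1 := hst.2.2.2 p
        have t2 := hst.2.2.2 q
        have i1 := ind_of_mem hp
        have i2 := ind_of_notMem hq
        have l1 := ind_le R2 q
        have l2 := ind_le R3 q
        exact ⟨_, _, hst.cross_one (by omega)⟩
    intro R R' hn hR hR'
    have hc : R.card = R'.card := by
      obtain ⟨_, _, h1⟩ := hR
      obtain ⟨_, _, h2⟩ := hR'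
      rw [h1.1, h2.1]
    have hn' : (R' \ R).card = n + 1 := by rw [← hn]; exact card_sdiff_comm hc.symm
    obtain ⟨p, hp⟩ : (R \ R').Nonempty := card_pos.1 (by omega)
    obtain ⟨q, hq⟩ : (R' \ R).Nonempty := card_pos.1 (by omega)
    rw [mem_sdiff] at hp hq
    rcases le_total (col p) (col q) with hle | hle
    · have f := step R p q hR hp.1 hq.2 hle ⟨R', hR', hp.2⟩
      have z := (h R p q hR f).1
      rw [abs_nonpos_iff, sub_eq_zero] at z
      rw [z]
      refine ih _ _ ?_ f hR'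
      have : sw p q R \ R' = (R \ R').erase p := by
        rw [sw_eq_insert_erase hp.1 hq.2]
        ext c
        simp only [mem_sdiff, mem_insert, mem_erase]
        constructor
        · rintro ⟨rfl | h1, h2⟩
          · exact absurd hq.1 h2
          · exact ⟨h1.1, h1.2, h2⟩
        · rintro ⟨h1, h2, h3⟩; exact ⟨Or.inr ⟨h1, h2⟩, h3⟩
      rw [this, card_erase_of_mem (mem_sdiff.2 hp), hn]; rfl
    · have f := step R' q p hR' hq.1 hp.2 hle ⟨R, hR, hq.2⟩
      have z := (h R' q p hR' f).1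
      rw [abs_nonpos_iff, sub_eq_zero] at z
      rw [z]
      refine ih _ _ ?_ hR f
      have : R \ sw q p R' = (R \ R').erase p := by
        rw [sw_eq_insert_erase hq.1 hp.2]
        ext c
        simp only [mem_sdiff, mem_insert, mem_erase, not_or, not_and]
        constructor
        · rintro ⟨h1, h2, h3⟩
          exact ⟨h2, h1, h3 (fun h => hq.2 (h ▸ h1))⟩
        · rintro ⟨h1, h2, h3⟩; exact ⟨h2, h1, fun _ => h3⟩
      rw [this, card_erase_of_mem (mem_sdiff.2 hp), hn]; rfl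

lemma nonpos_of_le_div_pow {x c μ : ℝ} (hμ : 1 < μ) (h : ∀ j : ℕ, x ≤ c / μ ^ j) : x ≤ 0 := by
  by_contra hx
  push Not at hx
  obtain ⟨j, hj⟩ := pow_unbounded_of_one_lt (c / x) hμ
  have h1 := h j
  have hp : 0 < μ ^ j := by positivity
  rw [le_div_iff₀ hp] at h1
  rw [div_lt_iff₀ hx] at hj
  linarith

theorem three_const {col : ι → ℕ} {r1 r2 r3 : ℕ} {g1 g2 g3 : Finset ι → ℝ} {μ : ℝ} (hμ : 1 < μ)
    (e1 : ∀ R, Feas col r1 r2 r3 R →
      mean (fib col r1 r2 r3 R) (fun P => g2 P.1 + g3 P.2) = μ * g1 R)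
    (e2 : ∀ R, Feas col r2 r1 r3 R →
      mean (fib col r2 r1 r3 R) (fun P => g1 P.1 + g3 P.2) = μ * g2 R)
    (e3 : ∀ R, Feas col r3 r1 r2 R →
      mean (fib col r3 r1 r2 R) (fun P => g1 P.1 + g2 P.2) = μ * g3 R) :
    Bd col r1 r2 r3 g1 0 0 ∧ Bd col r2 r1 r3 g2 0 0 ∧ Bd col r3 r1 r2 g3 0 0 := by
  have hμ0 : 0 < μ := by linarith
  let All : ℝ → ℝ → Prop := fun a b => 0 ≤ a ∧ 0 ≤ b ∧
    Bd col r1 r2 r3 g1 a b ∧ Bd col r2 r1 r3 g2 a b ∧ Bd col r3 r1 r2 g3 a b
  have step : ∀ a b, All a b → All (a / μ) ((a + b) / μ) := by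
    rintro a b ⟨ha, hb, h1, h2, h3⟩
    exact ⟨by positivity, by positivity, contract ha hb hμ0 h2 h3 e1,
      contract ha hb hμ0 h1 h3.swap e2, contract ha hb hμ0 h1.swap h2.swap e3⟩
  have init : ∀ g : Finset ι → ℝ, ∀ R R', |g R - g R'| ≤ 2 * ∑ S, |g S| := by
    intro g R R'
    have t1 := Finset.single_le_sum (f := fun S => |g S|) (fun _ _ => abs_nonneg _) (mem_univ R)
    have t2 := Finset.single_le_sum (f := fun S => |g S|) (fun _ _ => abs_nonneg _) (mem_univ R')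
    have := abs_sub (g R) (g R')
    linarith
  set c := 2 * ∑ S, |g1 S| + 2 * ∑ S, |g2 S| + 2 * ∑ S, |g3 S| with hc
  have p1 : 0 ≤ 2 * ∑ S, |g1 S| := by positivity
  have p2 : 0 ≤ 2 * ∑ S, |g2 S| := by positivity
  have p3 : 0 ≤ 2 * ∑ S, |g3 S| := by positivity
  have hc0 : 0 ≤ c := by positivity
  have b1 : ∀ R R', |g1 R - g1 R'| ≤ c := fun R R' => by linarith [init g1 R R']
  have b2 : ∀ R R', |g2 R - g2 R'| ≤ c := fun R R' => by linarith [init g2 R R']
  have b3 : ∀ R R', |g3 R - g3 R'| ≤ c := fun R R' => by linarith [init g3 R R']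
  have it1 : ∀ j : ℕ, ∃ b, All (c / μ ^ j) b := by
    intro j
    induction j with
    | zero =>
      refine ⟨c, by simpa using hc0, hc0, ?_, ?_, ?_⟩
      · intro R p q _ _; exact ⟨b1 _ _, fun _ => by simpa using b1 _ _⟩
      · intro R p q _ _; exact ⟨b2 _ _, fun _ => by simpa using b2 _ _⟩
      · intro R p q _ _; exact ⟨b3 _ _, fun _ => by simpa using b3 _ _⟩
    | succ j ih =>
      obtain ⟨b, hb⟩ := ih
      have := step _ _ hb
      rw [div_div, ← pow_succ] at this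
      exact ⟨_, this⟩
  have it2 : ∀ j : ℕ, All 0 (c / μ ^ j) := by
    intro j
    induction j with
    | zero =>
      refine ⟨le_rfl, by simpa using hc0, ?_, ?_, ?_⟩
      · intro R p q f1 f2
        exact ⟨by simpa using b1 _ _, fun h => nonpos_of_le_div_pow hμ fun j =>
          ((it1 j).choose_spec.2.2.1 R p q f1 f2).2 h⟩
      · intro R p q f1 f2
        exact ⟨by simpa using b2 _ _, fun h => nonpos_of_le_div_pow hμ fun j =>
          ((it1 j).choose_spec.2.2.2.1 R p q f1 f2).2 h⟩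
      · intro R p q f1 f2
        exact ⟨by simpa using b3 _ _, fun h => nonpos_of_le_div_pow hμ fun j =>
          ((it1 j).choose_spec.2.2.2.2 R p q f1 f2).2 h⟩
    | succ j ih =>
      have := step _ _ ih
      rwa [zero_div, zero_add, div_div, ← pow_succ] at this
  refine ⟨fun R p q f1 f2 => ?_, fun R p q f1 f2 => ?_, fun R p q f1 f2 => ?_⟩
  · have := nonpos_of_le_div_pow hμ fun j => ((it2 j).2.2.1 R p q f1 f2).1
    exact ⟨this, fun _ => this⟩
  · have := nonpos_of_le_div_pow hμ fun j => ((it2 j).2.2.2.1 R p q f1 f2).1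
    exact ⟨this, fun _ => this⟩
  · have := nonpos_of_le_div_pow hμ fun j => ((it2 j).2.2.2.2 R p q f1 f2).1
    exact ⟨this, fun _ => this⟩

end Three

end Crest.Agent.R299
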