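import Crest.Agent.R299.Avg
import Crest.Agent.R299.Three

set_option autoImplicit false

namespace Crest.Agent.R299

open Finset

section Abstract

variable {ι : Type*} [DecidableEq ι] [Fintype ι] {Y : Type*} [Fintype Y]

lemma row_eq {α : Type*} {col : ι → ℕ} {r1 r2 r3 : ℕ} (C : Finset Y) (M1 M2 M3 : Y → Finset ι)
    (hinj : ∀ y ∈ C, ∀ y' ∈ C, M1 y = M1 y' → M2 y = M2 y' → M3 y = M3 y' → y = y')
    (hst : ∀ y ∈ C, St col r1 r2 r3 (M1 y) (M2 y) (M3 y))
    (hsurj : ∀ R1 R2 R3, St col r1 r2 r3 R1 R2 R3 → ∃ y ∈ C, M1 y = R1 ∧ M2 y = R2 ∧ M3 y = R3)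
    (a1 : Y → α) (h1 : ∀ y ∈ C, ∀ y', a1 y' = a1 y ↔ y' ∈ C ∧ M1 y' = M1 y)
    (G1 G2 G3 : Y → ℝ) (g1 g2 g3 : Finset ι → ℝ) (k1 : ∀ y ∈ C, G1 y = g1 (M1 y))
    (k2 : ∀ y ∈ C, G2 y = g2 (M2 y)) (k3 : ∀ y ∈ C, G3 y = g3 (M3 y)) (μ : ℝ)
    (e : avg a1 (G2 + G3) = μ • G1) :
    ∀ R, Feas col r1 r2 r3 R →
      mean (fib col r1 r2 r3 R) (fun P => g2 P.1 + g3 P.2) = μ * g1 R := by
  rintro R ⟨R2, R3, h⟩
  obtain ⟨y, hy, rfl, -, -⟩ := hsurj _ _ _ h
  have key : ∀ θ : Finset ι × Finset ι → ℝ, ∑ y' ∈ cls a1 y, θ (M2 y', M3 y') =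
      ∑ P ∈ fib col r1 r2 r3 (M1 y), θ P := by
    intro θ
    refine Finset.sum_bij (fun y' _ => (M2 y', M3 y')) ?_ ?_ ?_ ?_
    · intro y' hy'
      have := (h1 y hy y').1 (mem_cls.1 hy')
      rw [mem_fib, ← this.2]
      exact hst y' this.1
    · intro z hz z' hz' hzz
      have t1 := (h1 y hy z).1 (mem_cls.1 hz)
      have t2 := (h1 y hy z').1 (mem_cls.1 hz')
      simp only [Prod.mk.injEq] at hzz
      exact hinj z t1.1 z' t2.1 (t1.2.trans t2.2.symm) hzz.1 hzz.2
    · intro P hP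
      obtain ⟨z, hz, z1, z2, z3⟩ := hsurj _ _ _ (mem_fib.1 hP)
      exact ⟨z, mem_cls.2 ((h1 y hy z).2 ⟨hz, z1⟩), by rw [z2, z3]⟩
    · intro _ _; rfl
  have c := key (fun _ => 1)
  simp only [Finset.sum_const, nsmul_eq_mul, mul_one] at c
  have e' := congrFun e y
  rw [avg_apply, Pi.smul_apply, smul_eq_mul, k1 y hy] at e'
  rw [← e', mean, ← key, ← c]
  congr 1
  refine Finset.sum_congr rfl fun z hz => ?_
  have t1 := (h1 y hy z).1 (mem_cls.1 hz)
  rw [Pi.add_apply, k2 z t1.1, k3 z t1.1]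

omit [Fintype ι] [DecidableEq ι] in
lemma exists_factor {α : Type*} (C : Finset Y) (M : Y → Finset ι) (a : Y → α)
    (h : ∀ y ∈ C, ∀ y', a y' = a y ↔ y' ∈ C ∧ M y' = M y) (f : Y → ℝ) :
    ∃ g : Finset ι → ℝ, ∀ y ∈ C, avg a f y = g (M y) := by
  classical
  refine ⟨fun R => if h : ∃ y ∈ C, M y = R then avg a f h.choose else 0, fun y hy => ?_⟩
  have hex : ∃ y' ∈ C, M y' = M y := ⟨y, hy, rfl⟩
  simp only [dif_pos hex]
  exact (avg_meas f ((h y hy _).2 hex.choose_spec)).symm

theorem three_abstract {α : Type*} {col : ι → ℕ} {r1 r2 r3 : ℕ} (C : Finset Y)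
    (M1 M2 M3 : Y → Finset ι)
    (hinj : ∀ y ∈ C, ∀ y' ∈ C, M1 y = M1 y' → M2 y = M2 y' → M3 y = M3 y' → y = y')
    (hst : ∀ y ∈ C, St col r1 r2 r3 (M1 y) (M2 y) (M3 y))
    (hsurj : ∀ R1 R2 R3, St col r1 r2 r3 R1 R2 R3 → ∃ y ∈ C, M1 y = R1 ∧ M2 y = R2 ∧ M3 y = R3)
    (a1 a2 a3 : Y → α) (h1 : ∀ y ∈ C, ∀ y', a1 y' = a1 y ↔ y' ∈ C ∧ M1 y' = M1 y)
    (h2 : ∀ y ∈ C, ∀ y', a2 y' = a2 y ↔ y' ∈ C ∧ M2 y' = M2 y)
    (h3 : ∀ y ∈ C, ∀ y', a3 y' = a3 y ↔ y' ∈ C ∧ M3 y' = M3 y)
    (f : Y → ℝ) (κ : ℝ) (hκ : 2 < κ) (e : avg a1 f + avg a2 f + avg a3 f = κ • f) :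
    ∀ y ∈ C, ∀ y' ∈ C, f y = f y' := by
  obtain ⟨g1, k1⟩ := exists_factor C M1 a1 h1 f
  obtain ⟨g2, k2⟩ := exists_factor C M2 a2 h2 f
  obtain ⟨g3, k3⟩ := exists_factor C M3 a3 h3 f
  have q1 : avg a1 (avg a2 f + avg a3 f) = (κ - 1) • avg a1 f := by
    have := congrArg (avg a1) e
    rw [add_assoc, map_add, avg_avg, map_smul] at this
    rw [sub_smul, one_smul, ← this]; abel
  have q2 : avg a2 (avg a1 f + avg a3 f) = (κ - 1) • avg a2 f := by
    have := congrArg (avg a2) e
    rw [add_comm (avg a1 f), add_assoc, map_add, avg_avg, map_smul] at this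
    rw [sub_smul, one_smul, ← this]; abel
  have q3 : avg a3 (avg a1 f + avg a2 f) = (κ - 1) • avg a3 f := by
    have := congrArg (avg a3) e
    rw [map_add, avg_avg, map_smul] at this
    rw [sub_smul, one_smul, ← this]; abel
  have e1 := row_eq C M1 M2 M3 hinj hst hsurj a1 h1 _ _ _ g1 g2 g3 k1 k2 k3 _ q1
  have e2 := row_eq C M2 M1 M3 (fun y hy y' hy' t2 t1 t3 => hinj y hy y' hy' t1 t2 t3)
    (fun y hy => (hst y hy).swap12)
    (fun R2 R1 R3 h => by
      obtain ⟨y, hy, t1, t2, t3⟩ := hsurj _ _ _ h.swap12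
      exact ⟨y, hy, t2, t1, t3⟩) a2 h2 _ _ _ g2 g1 g3 k2 k1 k3 _ q2
  have e3 := row_eq C M3 M1 M2 (fun y hy y' hy' t3 t1 t2 => hinj y hy y' hy' t1 t2 t3)
    (fun y hy => (hst y hy).swap23.swap12)
    (fun R3 R1 R2 h => by
      obtain ⟨y, hy, t1, t2, t3⟩ := hsurj _ _ _ h.swap12.swap23
      exact ⟨y, hy, t3, t1, t2⟩) a3 h3 _ _ _ g3 g1 g2 k3 k1 k2 _ q3
  obtain ⟨b1, b2, b3⟩ := three_const (by linarith : 1 < κ - 1) e1 e2 e3
  intro y hy y' hy'
  have c1 := b1.const _ _ _ rfl ⟨_, _, hst y hy⟩ ⟨_, _, hst y' hy'⟩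
  have c2 := b2.const _ _ _ rfl ⟨_, _, (hst y hy).swap12⟩ ⟨_, _, (hst y' hy').swap12⟩
  have c3 := b3.const _ _ _ rfl ⟨_, _, (hst y hy).swap23.swap12⟩
    ⟨_, _, (hst y' hy').swap23.swap12⟩
  have t := congrFun e y
  have t' := congrFun e y'
  simp only [Pi.add_apply, Pi.smul_apply, smul_eq_mul] at t t'
  rw [k1 y hy, k2 y hy, k3 y hy, c1, c2, c3] at t
  rw [k1 y' hy', k2 y' hy', k3 y' hy', t] at t'
  exact mul_left_cancel₀ (by linarith) t'

end Abstract

section Graph

variable {V : Type*} [DecidableEq V] [Fintype V]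

/-- Neighbourhood systems of simple graphs with degrees `d`. -/
def IsG (d : V → ℕ) (N : V → Finset V) : Prop :=
  (∀ a b, b ∈ N a → a ∈ N b) ∧ (∀ a, a ∉ N a) ∧ ∀ a, (N a).card = d a

/-- The state space. -/
def GX (d : V → ℕ) : Type _ := {N : V → Finset V // IsG d N}

noncomputable instance (d : V → ℕ) : Fintype (GX d) := by
  classical exact Subtype.fintype _

noncomputable instance (d : V → ℕ) : DecidableEq (GX d) := Classical.decEq _

variable {d : V → ℕ}

omit [DecidableEq V] [Fintype V] in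
lemma GX.symm (N : GX d) {a b : V} : b ∈ N.1 a ↔ a ∈ N.1 b := ⟨N.2.1 a b, N.2.1 b a⟩

omit [DecidableEq V] [Fintype V] in
lemma GX.irrefl (N : GX d) (a : V) : a ∉ N.1 a := N.2.2.1 a

omit [DecidableEq V] [Fintype V] in
lemma GX.card (N : GX d) (a : V) : (N.1 a).card = d a := N.2.2.2 a

omit [DecidableEq V] [Fintype V] in
lemma GX.ext' {N N' : GX d} (h : ∀ a b, b ∈ N.1 a ↔ b ∈ N'.1 a) : N = N' :=
  Subtype.ext (funext fun a => Finset.ext (h a))

omit [Fintype V] in
lemma GX.ind_symm (N : GX d) (a b : V) : ind (N.1 a) b = ind (N.1 b) a := by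
  simp only [ind, N.symm (a := a) (b := b)]

omit [Fintype V] in
lemma GX.ind_self (N : GX d) (a : V) : ind (N.1 a) a = 0 := ind_of_notMem (N.irrefl a)

lemma card_eq_sum_ind (R : Finset V) : R.card = ∑ c, ind R c := by
  simp [ind]

omit [Fintype V] in
lemma card_eq_sdiff_add (R W : Finset V) : R.card = (R \ W).card + ∑ c ∈ W, ind R c := by
  have : ∑ c ∈ W, ind R c = (R ∩ W).card := by
    simp only [ind]
    rw [Finset.sum_ite_mem, inter_comm]; simp
  rw [this, card_sdiff_add_card_inter]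

lemma card_sdiff_eq_sum (R W : Finset V) : (R \ W).card = ∑ c ∈ Wᶜ, ind R c := by
  have h1 := card_eq_sdiff_add R W
  have h2 := card_eq_sum_ind R
  rw [← Finset.sum_compl_add_sum W] at h2
  omega

/-- The part of the graph not touching `W`. -/
def out (W : Finset V) (N : GX d) : V → Finset V := fun a => if a ∈ W then ∅ else N.1 a \ W

omit [Fintype V] in
lemma out_eq_iff {W : Finset V} {N N' : GX d} :
    out W N = out W N' ↔ ∀ a, a ∉ W → ∀ b, b ∉ W → (b ∈ N.1 a ↔ b ∈ N'.1 a) := by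
  constructor
  · intro h a ha b hb
    have := congrFun h a
    simp only [out, if_neg ha] at this
    have h2 : b ∈ N.1 a \ W ↔ b ∈ N'.1 a \ W := by rw [this]
    simpa [hb] using h2
  · intro h
    funext a
    by_cases ha : a ∈ W
    · simp [out, ha]
    · simp only [out, if_neg ha]
      ext b
      simp only [mem_sdiff]
      exact ⟨fun t => ⟨(h a ha b t.2).1 t.1, t.2⟩, fun t => ⟨(h a ha b t.2).2 t.1, t.2⟩⟩

omit [Fintype V] in
lemma out_mono {W W' : Finset V} (hW : W ⊆ W') {N N' : GX d} (h : out W N = out W N') :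
    out W' N = out W' N' :=
  out_eq_iff.2 fun a ha b hb => out_eq_iff.1 h a (fun t => ha (hW t)) b (fun t => hb (hW t))

omit [Fintype V] in
lemma sdiff_eq_of_out {W : Finset V} {N N' : GX d} (h : out W N = out W N') {c : V} (hc : c ∉ W) :
    N.1 c \ W = N'.1 c \ W := by
  have := congrFun h c
  simpa only [out, if_neg hc] using this

omit [Fintype V] in
lemma col_inv {W : Finset V} {N N' : GX d} (h : out W N = out W N') {c : V} (hc : c ∉ W) :
    ∑ z ∈ W, ind (N.1 z) c = ∑ z ∈ W, ind (N'.1 z) c := by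
  have h1 := card_eq_sdiff_add (N.1 c) W
  have h2 := card_eq_sdiff_add (N'.1 c) W
  rw [N.card] at h1
  rw [N'.card, ← sdiff_eq_of_out h hc] at h2
  simp only [N.ind_symm _ c, N'.ind_symm _ c]
  omega

omit [Fintype V] in
lemma ext_of_out {W : Finset V} {N N' : GX d} (h : out W N = out W N')
    (h' : ∀ a ∈ W, N.1 a = N'.1 a) : N = N' := by
  refine GX.ext' fun a b => ?_
  by_cases ha : a ∈ W
  · rw [h' a ha]
  · by_cases hb : b ∈ W
    · rw [N.symm, N'.symm, h' b hb]
    · exact out_eq_iff.1 h a ha b hb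

omit [Fintype V] in
lemma patch (N0 : GX d) (W : Finset V) (ρ : V → Finset V)
    (hs : ∀ a ∈ W, ∀ b ∈ W, b ∈ ρ a → a ∈ ρ b) (hi : ∀ a ∈ W, a ∉ ρ a)
    (hr : ∀ a ∈ W, (ρ a).card = d a)
    (hc : ∀ c, c ∉ W → ∑ z ∈ W, ind (ρ z) c = ∑ z ∈ W, ind (N0.1 z) c) :
    ∃ N : GX d, out W N = out W N0 ∧ ∀ a ∈ W, N.1 a = ρ a := by
  let N : V → Finset V := fun a =>
    if a ∈ W then ρ a else (N0.1 a \ W) ∪ W.filter fun z => a ∈ ρ z
  have m1 : ∀ a ∈ W, N a = ρ a := fun a ha => by simp [N, ha]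
  have m2 : ∀ a, a ∉ W → ∀ b ∈ W, (b ∈ N a ↔ a ∈ ρ b) := fun a ha b hb => by simp [N, ha, hb]
  have m3 : ∀ a, a ∉ W → ∀ b, b ∉ W → (b ∈ N a ↔ b ∈ N0.1 a) := fun a ha b hb => by
    simp [N, ha, hb]
  refine ⟨⟨N, ?_, ?_, ?_⟩, out_eq_iff.2 m3, m1⟩
  · intro a b hab
    by_cases ha : a ∈ W <;> by_cases hb : b ∈ W
    · rw [m1 a ha] at hab; rw [m1 b hb]; exact hs a ha b hb hab
    · rw [m1 a ha] at hab; exact (m2 b hb a ha).2 hab
    · rw [m1 b hb]; exact (m2 a ha b hb).1 hab
    · rw [m3 b hb a ha, N0.symm, ← m3 a ha b hb]; exact hab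
  · intro a
    by_cases ha : a ∈ W
    · rw [m1 a ha]; exact hi a ha
    · rw [m3 a ha a ha]; exact N0.irrefl a
  · intro a
    by_cases ha : a ∈ W
    · rw [m1 a ha]; exact hr a ha
    · have h1 := card_eq_sdiff_add (N a) W
      have h2 := card_eq_sdiff_add (N0.1 a) W
      have h3 : N a \ W = N0.1 a \ W := by
        ext b; simp only [mem_sdiff]
        exact ⟨fun t => ⟨(m3 a ha b t.2).1 t.1, t.2⟩, fun t => ⟨(m3 a ha b t.2).2 t.1, t.2⟩⟩
      have h4 : ∑ c ∈ W, ind (N a) c = ∑ c ∈ W, ind (ρ c) a :=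
        Finset.sum_congr rfl fun c hc => by simp only [ind, m2 a ha c hc]
      have h5 := hc a ha
      simp only [N0.ind_symm _ a] at h5
      rw [N0.card] at h2
      rw [h1, h3, h4, h5, ← h2]

/-! ### Three vertices -/

/-- The row of `a` in the three-row picture of the triple `T`; the extra column `s` records the
absence of the edge `b c`. -/
def rowM (T : Finset V) (s : V) (a b c : V) (N : GX d) : Finset V :=
  (N.1 a \ T) ∪ (if c ∈ N.1 b then ∅ else {s})

omit [Fintype V] in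
lemma ind_rowM_out {T : Finset V} {s : V} (hs : s ∈ T) (a b c : V) (N : GX d) {z : V}
    (hz : z ∉ T) : ind (rowM T s a b c N) z = ind (N.1 a) z := by
  have : z ≠ s := fun h => hz (h ▸ hs)
  unfold rowM ind
  by_cases h : c ∈ N.1 b <;> simp [h, hz, this]

omit [Fintype V] in
lemma ind_rowM_star {T : Finset V} {s : V} (hs : s ∈ T) (a b c : V) (N : GX d) :
    ind (rowM T s a b c N) s + ind (N.1 b) c = 1 := by
  unfold rowM ind
  by_cases h : c ∈ N.1 b <;> simp [h, hs]

omit [Fintype V] in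
lemma ind_rowM_in {T : Finset V} {s : V} (a b c : V) (N : GX d) {z : V}
    (hz : z ∈ T) (hzs : z ≠ s) : ind (rowM T s a b c N) z = 0 := by
  unfold rowM ind
  by_cases h : c ∈ N.1 b <;> simp [h, hz, hzs]

omit [Fintype V] in
lemma card_rowM {T : Finset V} {s : V} (hs : s ∈ T) (a b c : V) (N : GX d) :
    (rowM T s a b c N).card + ind (N.1 b) c = (N.1 a \ T).card + 1 := by
  unfold rowM ind
  by_cases h : c ∈ N.1 b
  · simp [h]
  · simp only [h, if_false, add_zero]
    rw [card_union_of_disjoint (by simp [hs])]; simp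

omit [Fintype V] in
lemma finset_eq_iff_ind {R R' : Finset V} : R = R' ↔ ∀ c, ind R c = ind R' c := by
  constructor
  · rintro rfl c; rfl
  · intro h; ext c; rw [mem_iff_ind, mem_iff_ind, h]

omit [Fintype V] in
lemma deg_three {a b c : V} (hab : a ≠ b) (hac : a ≠ c) (hbc : b ≠ c) (N : GX d) :
    d a = (N.1 a \ {a, b, c}).card + ind (N.1 a) b + ind (N.1 a) c := by
  have := card_eq_sdiff_add (N.1 a) {a, b, c}
  rw [sum_insert (by simp [hab, hac]), sum_pair hbc, N.ind_self, N.card] at this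
  omega

omit [Fintype V] in
lemma out_pair_iff {a b c : V} (hab : a ≠ b) (hac : a ≠ c) (hbc : b ≠ c) {T : Finset V}
    (hT : T = {a, b, c}) {s : V} (hs : s ∈ T) {N0 N N' : GX d} (hN : out T N = out T N0)
    (he : ∀ N' : GX d, out T N' = out T N0 →
      ind (N'.1 a) b + ind (N'.1 a) c + ind (N'.1 b) c =
        ind (N0.1 a) b + ind (N0.1 a) c + ind (N0.1 b) c) :
    out {b, c} N' = out {b, c} N ↔
      out T N' = out T N0 ∧ rowM T s a b c N' = rowM T s a b c N := by
  have hsub : ({b, c} : Finset V) ⊆ T := by rw [hT]; exact subset_insert _ _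
  have haT : a ∉ ({b, c} : Finset V) := by simp [hab, hac]
  have hmem : ∀ z, z ∉ ({b, c} : Finset V) → z ≠ a → z ∉ T := by
    intro z h1 h2; rw [hT, mem_insert, not_or]; exact ⟨h2, h1⟩
  constructor
  · intro h
    have h1 := (out_mono hsub h).trans hN
    refine ⟨h1, ?_⟩
    have e1 : N'.1 a \ T = N.1 a \ T := by
      ext z
      simp only [mem_sdiff]
      exact ⟨fun t => ⟨(out_eq_iff.1 h a haT z fun u => t.2 (hsub u)).1 t.1, t.2⟩,
        fun t => ⟨(out_eq_iff.1 h a haT z fun u => t.2 (hsub u)).2 t.1, t.2⟩⟩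
    have e2 := he N' h1
    have e3 := he N hN
    have e4 := deg_three hab hac hbc N
    have e5 := deg_three hab hac hbc N'
    rw [← hT] at e4 e5
    rw [e1] at e5
    have e6 : c ∈ N'.1 b ↔ c ∈ N.1 b := by rw [mem_iff_ind, mem_iff_ind]; omega
    unfold rowM
    simp only [e1, e6]
  · rintro ⟨h1, h2⟩
    have h3 := out_eq_iff.1 (h1.trans hN.symm)
    have h4 : ∀ z, z ∉ T → (z ∈ N'.1 a ↔ z ∈ N.1 a) := by
      intro z hz
      have := finset_eq_iff_ind.1 h2 z
      rw [ind_rowM_out hs _ _ _ _ hz, ind_rowM_out hs _ _ _ _ hz] at this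
      rw [mem_iff_ind, mem_iff_ind, this]
    refine out_eq_iff.2 fun x hx y hy => ?_
    by_cases hxa : x = a
    · subst hxa
      by_cases hya : y = x
      · subst hya; simp [GX.irrefl]
      · exact h4 y (hmem y hy hya)
    · by_cases hya : y = a
      · subst hya; rw [N.symm, N'.symm]; exact h4 x (hmem x hx hxa)
      · exact h3 x (hmem x hx hxa) y (hmem y hy hya)

lemma internal_inv {a b c : V} (hab : a ≠ b) (hac : a ≠ c) (hbc : b ≠ c) {N N' : GX d}
    (h : out {a, b, c} N = out {a, b, c} N') :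
    ind (N.1 a) b + ind (N.1 a) c + ind (N.1 b) c =
      ind (N'.1 a) b + ind (N'.1 a) c + ind (N'.1 b) c := by
  have key : ∀ N : GX d, d a + d b + d c = 2 * (ind (N.1 a) b + ind (N.1 a) c + ind (N.1 b) c) +
      ∑ z ∈ ({a, b, c} : Finset V)ᶜ, ∑ t ∈ ({a, b, c} : Finset V), ind (N.1 t) z := by
    intro N
    have e1 := deg_three hab hac hbc N
    have e2 := deg_three hab.symm hbc hac N
    have e3 := deg_three hac.symm hbc.symm hab N
    have s2 : ({b, a, c} : Finset V) = {a, b, c} := Finset.insert_comm _ _ _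
    have s3 : ({c, a, b} : Finset V) = {a, b, c} := by ext; simp; tauto
    rw [s2] at e2
    rw [s3] at e3
    rw [Finset.sum_comm, sum_insert (by simp [hab, hac]), sum_pair hbc, ← card_sdiff_eq_sum,
      ← card_sdiff_eq_sum, ← card_sdiff_eq_sum]
    rw [N.ind_symm b a] at e2
    rw [N.ind_symm c a, N.ind_symm c b] at e3
    omega
  have k1 := key N
  have k2 := key N'
  rw [Finset.sum_congr rfl fun z hz => col_inv h (mem_compl.1 hz)] at k1
  omega

theorem three_graph {a b c : V} (hab : a ≠ b) (hac : a ≠ c) (hbc : b ≠ c) (f : GX d → ℝ) (κ : ℝ)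
    (hκ : 2 < κ)
    (e : avg (out {b, c}) f + avg (out {a, c}) f + avg (out {a, b}) f = κ • f) {N0 N1 : GX d}
    (h01 : out {a, b, c} N1 = out {a, b, c} N0) : f N1 = f N0 := by
  set T : Finset V := {a, b, c} with hT
  have s2 : T = {b, a, c} := Finset.insert_comm _ _ _
  have s3 : T = {c, a, b} := by rw [hT]; ext; simp; tauto
  have ha : a ∈ T := by simp [hT]
  have hb : b ∈ T := by simp [hT]
  have hc : c ∈ T := by simp [hT]
  have sumT : ∀ φ : V → ℕ, ∑ z ∈ T, φ z = φ a + φ b + φ c := fun φ => by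
    rw [hT, sum_insert (by simp [hab, hac]), sum_pair hbc, add_assoc]
  have inT : ∀ z ∈ T, z = a ∨ z = b ∨ z = c := fun z hz => by simpa [hT] using hz
  have he : ∀ N' : GX d, out T N' = out T N0 →
      ind (N'.1 a) b + ind (N'.1 a) c + ind (N'.1 b) c =
        ind (N0.1 a) b + ind (N0.1 a) c + ind (N0.1 b) c := fun N' h =>
    internal_inv hab hac hbc h
  have dg : ∀ N : GX d, d a = (N.1 a \ T).card + ind (N.1 a) b + ind (N.1 a) c ∧
      d b = (N.1 b \ T).card + ind (N.1 a) b + ind (N.1 b) c ∧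
      d c = (N.1 c \ T).card + ind (N.1 a) c + ind (N.1 b) c := by
    intro N
    have e1 := deg_three hab hac hbc N
    have e2 := deg_three hab.symm hbc hac N
    have e3 := deg_three hac.symm hbc.symm hab N
    rw [← s2, N.ind_symm b a] at e2
    rw [← s3, N.ind_symm c a, N.ind_symm c b] at e3
    exact ⟨e1, e2, e3⟩
  refine three_abstract (col := fun z => ind (rowM T a a b c N0) z + ind (rowM T a b a c N0) z +
      ind (rowM T a c a b N0) z) (r1 := (rowM T a a b c N0).card) (r2 := (rowM T a b a c N0).card)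
    (r3 := (rowM T a c a b N0).card) (cls (out T) N0) (rowM T a a b c) (rowM T a b a c)
    (rowM T a c a b) ?_ ?_ ?_ (out {b, c}) (out {a, c}) (out {a, b}) ?_ ?_ ?_ f κ hκ e
    N1 (mem_cls.2 h01) N0 (self_mem_cls _ _)
  · intro N hN N' hN' h1 h2 h3
    refine ext_of_out ((mem_cls.1 hN).trans (mem_cls.1 hN').symm) fun t ht => ?_
    rw [finset_eq_iff_ind] at h1 h2 h3 ⊢
    have i1 := ind_rowM_star ha a b c N
    have i2 := ind_rowM_star ha b a c N
    have i3 := ind_rowM_star ha c a b N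
    have j1 := ind_rowM_star ha a b c N'
    have j2 := ind_rowM_star ha b a c N'
    have j3 := ind_rowM_star ha c a b N'
    have k1 := h1 a
    have k2 := h2 a
    have k3 := h3 a
    intro z
    by_cases hz : z ∈ T
    · have u1 := N.ind_symm b a
      have u2 := N.ind_symm c a
      have u3 := N.ind_symm c b
      have v1 := N'.ind_symm b a
      have v2 := N'.ind_symm c a
      have v3 := N'.ind_symm c b
      rcases inT t ht with rfl | rfl | rfl <;> rcases inT z hz with rfl | rfl | rfl <;>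
        first | omega | rw [N.ind_self, N'.ind_self]
    · have l1 := h1 z
      have l2 := h2 z
      have l3 := h3 z
      simp only [ind_rowM_out ha _ _ _ _ hz] at l1 l2 l3
      rcases inT t ht with rfl | rfl | rfl <;> assumption
  · intro N hN
    have hN' := mem_cls.1 hN
    have e1 := he N hN'
    have d1 := dg N
    have d0 := dg N0
    have c1 := card_rowM ha a b c N
    have c2 := card_rowM ha b a c N
    have c3 := card_rowM ha c a b N
    have c1' := card_rowM ha a b c N0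
    have c2' := card_rowM ha b a c N0
    have c3' := card_rowM ha c a b N0
    refine ⟨by omega, by omega, by omega, fun z => ?_⟩
    beta_reduce
    by_cases hz : z ∈ T
    · by_cases hza : z = a
      · subst hza
        have i1 := ind_rowM_star ha z b c N
        have i2 := ind_rowM_star ha b z c N
        have i3 := ind_rowM_star ha c z b N
        have j1 := ind_rowM_star ha z b c N0
        have j2 := ind_rowM_star ha b z c N0
        have j3 := ind_rowM_star ha c z b N0
        omega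
      · simp only [ind_rowM_in _ _ _ _ hz hza]
    · have := col_inv hN' hz
      rw [sumT, sumT] at this
      simp only [ind_rowM_out ha _ _ _ _ hz, this]
  · intro R1 R2 R3 hst
    obtain ⟨t1, t2, t3, t4⟩ := hst
    have z1 : ∀ z ∈ T, z ≠ a → ind R1 z = 0 ∧ ind R2 z = 0 ∧ ind R3 z = 0 := by
      intro z hz hza
      have := t4 z
      simp only [ind_rowM_in _ _ _ _ hz hza] at this
      omega
    let ρ : V → Finset V := fun t =>
      if t = a then (R1 \ T) ∪ T.filter (fun z => (z = b ∧ a ∉ R3) ∨ (z = c ∧ a ∉ R2))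
      else if t = b then (R2 \ T) ∪ T.filter (fun z => (z = a ∧ a ∉ R3) ∨ (z = c ∧ a ∉ R1))
      else (R3 \ T) ∪ T.filter (fun z => (z = a ∧ a ∉ R2) ∨ (z = b ∧ a ∉ R1))
    have ρa : ρ a = (R1 \ T) ∪ T.filter (fun z => (z = b ∧ a ∉ R3) ∨ (z = c ∧ a ∉ R2)) := by
      simp [ρ]
    have ρb : ρ b = (R2 \ T) ∪ T.filter (fun z => (z = a ∧ a ∉ R3) ∨ (z = c ∧ a ∉ R1)) := by
      simp [ρ, hab.symm]
    have ρc : ρ c = (R3 \ T) ∪ T.filter (fun z => (z = a ∧ a ∉ R2) ∨ (z = b ∧ a ∉ R1)) := by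
      simp [ρ, hac.symm, hbc.symm]
    have maa : a ∉ ρ a := by simp [ρa, ha, hab, hac]
    have mbb : b ∉ ρ b := by simp [ρb, hb, hab.symm, hbc]
    have mcc : c ∉ ρ c := by simp [ρc, hc, hac.symm, hbc.symm]
    have mab : b ∈ ρ a ↔ a ∉ R3 := by simp [ρa, hb, hbc]
    have mba : a ∈ ρ b ↔ a ∉ R3 := by simp [ρb, ha, hac]
    have mac : c ∈ ρ a ↔ a ∉ R2 := by simp [ρa, hc, hbc.symm]
    have mca : a ∈ ρ c ↔ a ∉ R2 := by simp [ρc, ha, hab]
    have mbc : c ∈ ρ b ↔ a ∉ R1 := by simp [ρb, hc, hac.symm]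
    have mcb : b ∈ ρ c ↔ a ∉ R1 := by simp [ρc, hb, hab.symm]
    have oa : ∀ z, z ∉ T → ind (ρ a) z = ind R1 z := fun z hz => by simp [ind, ρa, hz]
    have ob : ∀ z, z ∉ T → ind (ρ b) z = ind R2 z := fun z hz => by simp [ind, ρb, hz]
    have oc : ∀ z, z ∉ T → ind (ρ c) z = ind R3 z := fun z hz => by simp [ind, ρc, hz]
    have flip : ∀ {P Q : Finset V} {x y : V}, (x ∈ P ↔ y ∉ Q) → ind P x + ind Q y = 1 := by
      intro P Q x y h
      by_cases hy : y ∈ Q
      · rw [ind_of_mem hy, ind_of_notMem (fun t => h.1 t hy)]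
      · rw [ind_of_notMem hy, ind_of_mem (h.2 hy)]
    have sd : ∀ {P Q : Finset V}, (∀ z, z ∉ T → ind P z = ind Q z) → (P \ T).card = (Q \ T).card := by
      intro P Q h
      rw [card_sdiff_eq_sum, card_sdiff_eq_sum]
      exact Finset.sum_congr rfl fun z hz => h z (mem_compl.1 hz)
    have d0 := dg N0
    have c1' := card_rowM ha a b c N0
    have c2' := card_rowM ha b a c N0
    have c3' := card_rowM ha c a b N0
    have j1 := ind_rowM_star ha a b c N0
    have j2 := ind_rowM_star ha b a c N0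
    have j3 := ind_rowM_star ha c a b N0
    have t4a := t4 a
    beta_reduce at t4a
    have zb := z1 b hb hab.symm
    have zc := z1 c hc hac.symm
    have w1 := card_eq_sdiff_add R1 T
    have w2 := card_eq_sdiff_add R2 T
    have w3 := card_eq_sdiff_add R3 T
    rw [sumT] at w1 w2 w3
    obtain ⟨N, hN, hρ⟩ := patch N0 T ρ
      (by
        intro x hx y hy
        rcases inT x hx with rfl | rfl | rfl <;> rcases inT y hy with rfl | rfl | rfl <;>
          simp only [mab, mba, mac, mca, mbc, mcb, imp_self])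
      (by
        intro x hx
        rcases inT x hx with rfl | rfl | rfl <;> assumption)
      (by
        intro x hx
        have := card_eq_sdiff_add (ρ x) T
        rw [sumT] at this
        have f1 := flip mab
        have f2 := flip mba
        have f3 := flip mac
        have f4 := flip mca
        have f5 := flip mbc
        have f6 := flip mcb
        have g1 := ind_of_notMem maa
        have g2 := ind_of_notMem mbb
        have g3 := ind_of_notMem mcc
        have s1 := sd oa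
        have s2 := sd ob
        have s3 := sd oc
        rcases inT x hx with rfl | rfl | rfl <;> omega)
      (by
        intro z hz
        have := t4 z
        simp only [ind_rowM_out ha _ _ _ _ hz] at this
        rw [sumT, sumT, oa z hz, ob z hz, oc z hz, this])
    refine ⟨N, mem_cls.2 hN, ?_, ?_, ?_⟩
    · rw [finset_eq_iff_ind]
      intro z
      by_cases hz : z ∈ T
      · by_cases hza : z = a
        · subst hza
          have := ind_rowM_star ha z b c N
          have f5 := flip mbc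
          rw [hρ b hb] at this
          omega
        · rw [ind_rowM_in _ _ _ _ hz hza, (z1 z hz hza).1]
      · rw [ind_rowM_out ha _ _ _ _ hz, hρ a ha, oa z hz]
    · rw [finset_eq_iff_ind]
      intro z
      by_cases hz : z ∈ T
      · by_cases hza : z = a
        · subst hza
          have := ind_rowM_star ha b z c N
          have f5 := flip mac
          rw [hρ z ha] at this
          omega
        · rw [ind_rowM_in _ _ _ _ hz hza, (z1 z hz hza).2.1]
      · rw [ind_rowM_out ha _ _ _ _ hz, hρ b hb, ob z hz]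
    · rw [finset_eq_iff_ind]
      intro z
      by_cases hz : z ∈ T
      · by_cases hza : z = a
        · subst hza
          have := ind_rowM_star ha c z b N
          have f5 := flip mab
          rw [hρ z ha] at this
          omega
        · rw [ind_rowM_in _ _ _ _ hz hza, (z1 z hz hza).2.2]
      · rw [ind_rowM_out ha _ _ _ _ hz, hρ c hc, oc z hz]
  · intro N hN N'
    rw [mem_cls]
    exact out_pair_iff hab hac hbc hT ha (mem_cls.1 hN) he
  · intro N hN N'
    rw [mem_cls]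
    refine out_pair_iff hab.symm hbc hac s2 ha (mem_cls.1 hN) fun N' h => ?_
    have := he N' h
    rw [N'.ind_symm b a, N0.ind_symm b a]; omega
  · intro N hN N'
    rw [mem_cls]
    refine out_pair_iff hac.symm hbc.symm hab s3 ha (mem_cls.1 hN) fun N' h => ?_
    have := he N' h
    rw [N'.ind_symm c a, N0.ind_symm c a, N'.ind_symm c b, N0.ind_symm c b]; omega

/-- The overlapping-pairs inequality. -/
theorem triple_nonneg {a b c : V} (hab : a ≠ b) (hac : a ≠ c) (hbc : b ≠ c) (f : GX d → ℝ) :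
    0 ≤ (f - avg (out {a, b}) f) ⬝ᵥ (f - avg (out {a, c}) f) +
      (f - avg (out {a, b}) f) ⬝ᵥ (f - avg (out {b, c}) f) +
      (f - avg (out {a, c}) f) ⬝ᵥ (f - avg (out {b, c}) f) := by
  let S : (GX d → ℝ) →ₗ[ℝ] (GX d → ℝ) :=
    (LinearMap.id - avg (out {b, c})) + (LinearMap.id - avg (out {a, c})) +
      (LinearMap.id - avg (out {a, b}))
  have hS : ∀ g, S g = (g - avg (out {b, c}) g) + (g - avg (out {a, c}) g) +
      (g - avg (out {a, b}) g) := fun g => rfl
  have h := spectral_quad S (by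
    intro f g
    simp only [hS, add_dotProduct, sub_dotProduct, dotProduct_add, dotProduct_sub, avg_symm])
    0 (-1) 1 f (by
      intro l g hg
      by_cases h1 : l ≤ 0
      · exact mul_nonneg (by nlinarith) (sq_nonneg _)
      by_cases h2 : 1 ≤ l
      · exact mul_nonneg (by nlinarith) (sq_nonneg _)
      push Not at h1 h2
      have e : avg (out {b, c}) g + avg (out {a, c}) g + avg (out {a, b}) g = (3 - l) • g := by
        rw [sub_smul, ← hg, hS]
        funext x
        simp only [Pi.add_apply, Pi.sub_apply, Pi.smul_apply, smul_eq_mul]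
        ring
      have hconst : ∀ N1 N0 : GX d, out {a, b, c} N1 = out {a, b, c} N0 → g N1 = g N0 :=
        fun N1 N0 h => three_graph hab hac hbc g _ (by linarith) e h
      have m : ∀ W : Finset V, W ⊆ {a, b, c} → avg (out W) g = g := fun W hW =>
        avg_of_meas fun x y h => hconst x y (out_mono hW h)
      rw [hS, m _ (by intro; simp; tauto), m _ (by intro; simp; tauto),
        m _ (by intro; simp; tauto)] at hg
      have : g = 0 := by
        have h0 : l • g = 0 := by rw [← hg]; simp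
        exact (smul_eq_zero.1 h0).resolve_left h1.ne'
      simp [this])
  have pr : ∀ W : Finset V, f ⬝ᵥ (f - avg (out W) f) =
      (f - avg (out W) f) ⬝ᵥ (f - avg (out W) f) := by
    intro W
    rw [sub_dotProduct f, avg_symm, map_sub, avg_avg, sub_self, dotProduct_zero, sub_zero]
  rw [hS] at h
  set p1 := f - avg (out {b, c}) f
  set p2 := f - avg (out {a, c}) f
  set p3 := f - avg (out {a, b}) f
  have q1 : f ⬝ᵥ p1 = p1 ⬝ᵥ p1 := pr _
  have q2 : f ⬝ᵥ p2 = p2 ⬝ᵥ p2 := pr _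
  have q3 : f ⬝ᵥ p3 = p3 ⬝ᵥ p3 := pr _
  simp only [add_dotProduct, dotProduct_add, q1, q2, q3] at h
  rw [dotProduct_comm p1 p2, dotProduct_comm p1 p3, dotProduct_comm p2 p3] at h
  linarith

end Graph

end Crest.Agent.R299
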