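import Mathlib

set_option autoImplicit false

namespace Crest.Agent.R299

open Finset

section Johnson

variable {ι : Type*} [DecidableEq ι]

lemma updown (F : Finset ι) (j : ℕ) (φ : Finset ι → ℝ) :
    ∑ S ∈ F.powersetCard j, ∑ r ∈ F \ S, φ (insert r S) =
      (j + 1) * ∑ S ∈ F.powersetCard (j + 1), φ S := by
  have h1 : ∑ S ∈ F.powersetCard j, ∑ r ∈ F \ S, φ (insert r S) =
      ∑ r ∈ F, ∑ S ∈ (F.powersetCard j).filter (fun S => r ∉ S), φ (insert r S) := by
    apply Finset.sum_comm'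
    intro S r
    simp only [mem_sdiff, mem_filter]
    tauto
  have h2 : (j + 1 : ℝ) * ∑ S ∈ F.powersetCard (j + 1), φ S =
      ∑ r ∈ F, ∑ S ∈ (F.powersetCard (j + 1)).filter (fun S => r ∈ S), φ S := by
    rw [Finset.mul_sum]
    have : ∀ S ∈ F.powersetCard (j + 1), (j + 1 : ℝ) * φ S = ∑ r ∈ S, φ S := by
      intro S hS
      rw [Finset.sum_const, (mem_powersetCard.1 hS).2]; simp
    rw [Finset.sum_congr rfl this]
    apply Finset.sum_comm'
    intro S r
    simp only [mem_filter, mem_powersetCard]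
    constructor
    · rintro ⟨h, hr⟩; exact ⟨⟨h, hr⟩, h.1 hr⟩
    · rintro ⟨⟨h, hr⟩, _⟩; exact ⟨h, hr⟩
  rw [h1, h2]
  refine Finset.sum_congr rfl fun r hr => ?_
  refine Finset.sum_bij' (fun S _ => insert r S) (fun S _ => S.erase r) ?_ ?_ ?_ ?_ ?_
  · intro S hS
    simp only [mem_filter, mem_powersetCard] at hS ⊢
    refine ⟨⟨?_, ?_⟩, mem_insert_self _ _⟩
    · exact insert_subset hr hS.1.1
    · rw [card_insert_of_notMem hS.2, hS.1.2]
  · intro S hS
    simp only [mem_filter, mem_powersetCard] at hS ⊢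
    refine ⟨⟨(erase_subset _ _).trans hS.1.1, ?_⟩, notMem_erase _ _⟩
    rw [card_erase_of_mem hS.2, hS.1.2]; rfl
  · intro S hS
    simp only [mem_filter] at hS
    exact erase_insert hS.2
  · intro S hS
    simp only [mem_filter] at hS
    exact insert_erase hS.2
  · intro S _; rfl

/-- The mean of `f` over a finite family. -/
noncomputable def mean {β : Type*} (Φ : Finset β) (f : β → ℝ) : ℝ := (∑ S ∈ Φ, f S) / Φ.card

lemma sum_eq_card_mul_mean {β : Type*} (Φ : Finset β) (f : β → ℝ) :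
    ∑ S ∈ Φ, f S = Φ.card * mean Φ f := by
  rcases Φ.eq_empty_or_nonempty with h | h
  · simp [h]
  · have : (Φ.card : ℝ) ≠ 0 := by exact_mod_cast h.card_pos.ne'
    rw [mean]; field_simp

lemma sum_sq_sub_const {β : Type*} (Φ : Finset β) (f : β → ℝ) (c : ℝ) :
    ∑ S ∈ Φ, (f S - c) ^ 2 = ∑ S ∈ Φ, (f S - mean Φ f) ^ 2 + Φ.card * (mean Φ f - c) ^ 2 := by
  have h := sum_eq_card_mul_mean Φ f
  have e1 : ∀ c : ℝ, ∑ S ∈ Φ, (f S - c) ^ 2 =
      ∑ S ∈ Φ, f S ^ 2 - 2 * c * ∑ S ∈ Φ, f S + Φ.card * c ^ 2 := by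
    intro c
    rw [Finset.mul_sum, ← Finset.sum_sub_distrib, ← nsmul_eq_mul, ← Finset.sum_const,
      ← Finset.sum_add_distrib]
    exact Finset.sum_congr rfl fun S _ => by ring
  rw [e1, e1, h]; ring

/-- The exchange energy of `f` on the `k`-subsets of `F`. -/
noncomputable def exch (F : Finset ι) (k : ℕ) (f : Finset ι → ℝ) : ℝ :=
  ∑ S ∈ F.powersetCard k, ∑ x ∈ S, ∑ y ∈ F \ S, (f S - f (insert y (S.erase x))) ^ 2

lemma exch_nonneg (F : Finset ι) (k : ℕ) (f : Finset ι → ℝ) : 0 ≤ exch F k f :=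
  Finset.sum_nonneg fun _ _ => Finset.sum_nonneg fun _ _ => Finset.sum_nonneg fun _ _ =>
    sq_nonneg _

lemma sum_powersetCard_succ_insert {F : Finset ι} {p : ι} (hp : p ∉ F) (k : ℕ)
    (φ : Finset ι → ℝ) :
    ∑ S ∈ (insert p F).powersetCard (k + 1), φ S =
      ∑ S ∈ F.powersetCard (k + 1), φ S + ∑ S ∈ F.powersetCard k, φ (insert p S) := by
  rw [powersetCard_succ_insert hp, sum_union, sum_image]
  · intro S hS T hT h
    have hS' : p ∉ S := fun h => hp ((mem_powersetCard.1 hS).1 h)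
    have hT' : p ∉ T := fun h => hp ((mem_powersetCard.1 hT).1 h)
    rw [← erase_insert hS', ← erase_insert hT']
    exact congrArg (fun U => U.erase p) h
  · rw [Finset.disjoint_left]
    intro S hS hS'
    obtain ⟨T, _, rfl⟩ := mem_image.1 hS'
    exact hp ((mem_powersetCard.1 hS).1 (mem_insert_self _ _))

/-- Poincaré inequality on the slice. -/
theorem slice_poincare (F : Finset ι) : ∀ (k : ℕ) (f : Finset ι → ℝ),
    ∑ S ∈ F.powersetCard k, (f S - mean (F.powersetCard k) f) ^ 2 ≤ exch F k f := by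
  induction F using Finset.induction_on with
  | empty =>
    intro k f
    refine le_trans (le_of_eq ?_) (exch_nonneg _ _ _)
    rcases k with _ | k
    · simp [mean]
    · simp [powersetCard_eq_empty.2]
  | insert p F hp ih =>
    intro k f
    rcases k with _ | k
    · refine le_trans (le_of_eq ?_) (exch_nonneg _ _ _)
      simp [mean]
    · set m0 := mean (F.powersetCard (k + 1)) f with hm0
      set m1 := mean (F.powersetCard k) (fun S => f (insert p S)) with hm1
      have h1 := sum_sq_sub_const ((insert p F).powersetCard (k + 1)) f m1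
      have h2 : 0 ≤ (((insert p F).powersetCard (k + 1)).card : ℝ) *
          (mean ((insert p F).powersetCard (k + 1)) f - m1) ^ 2 := by positivity
      rw [sum_powersetCard_succ_insert hp, sum_sq_sub_const (F.powersetCard (k + 1)) f m1] at h1
      have i0 := ih (k + 1) f
      have i1 := ih k (fun S => f (insert p S))
      set N0 : ℝ := ((F.powersetCard (k + 1)).card : ℝ) with hN0
      set cross : ℝ := ∑ S ∈ F.powersetCard k, ∑ y ∈ F \ S,
        (f (insert p S) - f (insert y S)) ^ 2 with hcross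
      have hc : (k + 1) * N0 * (m0 - m1) ^ 2 ≤ cross := by
        have u1 := updown F k f
        have u2 := updown F k (fun _ => 1)
        rw [sum_eq_card_mul_mean (F.powersetCard (k + 1)) f] at u1
        have u3 : ∑ S ∈ F.powersetCard k, ∑ _y ∈ F \ S, f (insert p S) =
            ((F.card - k : ℕ) : ℝ) * ((F.powersetCard k).card * m1) := by
          rw [hm1, ← sum_eq_card_mul_mean, Finset.mul_sum]
          refine Finset.sum_congr rfl fun S hS => ?_
          rw [Finset.sum_const, card_sdiff_of_subset (mem_powersetCard.1 hS).1,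
            (mem_powersetCard.1 hS).2, nsmul_eq_mul]
        have u4 : ∑ S ∈ F.powersetCard k, ∑ _y ∈ F \ S, (1 : ℝ) =
            ((F.card - k : ℕ) : ℝ) * (F.powersetCard k).card := by
          rw [Finset.sum_congr rfl (g := fun _ => ((F.card - k : ℕ) : ℝ))]
          · rw [Finset.sum_const, nsmul_eq_mul, mul_comm]
          · intro S hS
            rw [Finset.sum_const, card_sdiff_of_subset (mem_powersetCard.1 hS).1,
              (mem_powersetCard.1 hS).2, nsmul_eq_mul, mul_one]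
        have u5 : ∑ S ∈ F.powersetCard (k + 1), (1 : ℝ) = N0 := by simp [hN0]
        rw [u5] at u2
        have u6 : 0 ≤ ∑ S ∈ F.powersetCard k, ∑ y ∈ F \ S,
            ((f (insert p S) - f (insert y S)) - (m1 - m0)) ^ 2 :=
          Finset.sum_nonneg fun _ _ => Finset.sum_nonneg fun _ _ => sq_nonneg _
        have u7 : ∑ S ∈ F.powersetCard k, ∑ y ∈ F \ S,
            ((f (insert p S) - f (insert y S)) - (m1 - m0)) ^ 2 =
            cross - 2 * (m1 - m0) * (∑ S ∈ F.powersetCard k, ∑ _y ∈ F \ S, f (insert p S) -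
              ∑ S ∈ F.powersetCard k, ∑ y ∈ F \ S, f (insert y S)) +
              (m1 - m0) ^ 2 * ∑ S ∈ F.powersetCard k, ∑ _y ∈ F \ S, (1 : ℝ) := by
          rw [hcross, ← Finset.sum_sub_distrib, Finset.mul_sum, Finset.mul_sum,
            ← Finset.sum_sub_distrib, ← Finset.sum_add_distrib]
          refine Finset.sum_congr rfl fun S _ => ?_
          rw [← Finset.sum_sub_distrib, Finset.mul_sum, Finset.mul_sum,
            ← Finset.sum_sub_distrib, ← Finset.sum_add_distrib]
          exact Finset.sum_congr rfl fun y _ => by ring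
        rw [u7, u3, u1, ← mul_assoc, ← u4, u2] at u6
        nlinarith [u6]
      have hN : 0 ≤ N0 := by positivity
      have hc' : N0 * (m0 - m1) ^ 2 ≤ cross := by
        have : 0 ≤ (k : ℝ) * N0 * (m0 - m1) ^ 2 := by positivity
        nlinarith
      have hW : exch F (k + 1) f + (exch F k (fun S => f (insert p S)) + cross) ≤
          exch (insert p F) (k + 1) f := by
        unfold exch
        rw [sum_powersetCard_succ_insert hp]
        refine add_le_add ?_ (le_of_eq ?_)
        · refine Finset.sum_le_sum fun S _ => Finset.sum_le_sum fun x _ => ?_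
          refine Finset.sum_le_sum_of_subset_of_nonneg ?_ fun _ _ _ => sq_nonneg _
          exact sdiff_subset_sdiff (subset_insert _ _) (Finset.Subset.refl _)
        · rw [hcross, ← Finset.sum_add_distrib]
          refine Finset.sum_congr rfl fun S hS => ?_
          have hS' : p ∉ S := fun h => hp ((mem_powersetCard.1 hS).1 h)
          have e1 : insert p F \ insert p S = F \ S := by
            ext y; simp only [mem_sdiff, mem_insert]
            constructor
            · rintro ⟨h1, h2⟩; push Not at h2; exact ⟨h1.resolve_left h2.1, h2.2⟩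
            · rintro ⟨g1, g2⟩
              exact ⟨Or.inr g1, fun h => h.elim (fun h => hp (h ▸ g1)) g2⟩
          rw [Finset.sum_insert hS', e1, erase_insert hS', add_comm]
          congr 1
          refine Finset.sum_congr rfl fun x hx => Finset.sum_congr rfl fun y _ => ?_
          have hxp : p ≠ x := fun h => hS' (h ▸ hx)
          rw [erase_insert_of_ne hxp, Finset.insert_comm]
      linarith

/-- Exchange two elements in a set. -/
def sw (x y : ι) (S : Finset ι) : Finset ι := S.image (Equiv.swap x y)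

lemma mem_sw {x y c : ι} {S : Finset ι} : c ∈ sw x y S ↔ Equiv.swap x y c ∈ S := by
  unfold sw
  rw [mem_image]
  constructor
  · rintro ⟨a, ha, rfl⟩; simpa using ha
  · intro h; exact ⟨_, h, by simp⟩

lemma sw_sw (x y : ι) (S : Finset ι) : sw x y (sw x y S) = S := by
  ext c; simp [mem_sw]

lemma card_sw (x y : ι) (S : Finset ι) : (sw x y S).card = S.card :=
  card_image_of_injective _ (Equiv.swap x y).injective

lemma sw_eq_insert_erase {x y : ι} {S : Finset ι} (hx : x ∈ S) (hy : y ∉ S) :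
    sw x y S = insert y (S.erase x) := by
  ext c
  rw [mem_sw, mem_insert, mem_erase]
  by_cases h1 : c = x
  · subst h1
    have : c ≠ y := fun h => hy (h ▸ hx)
    simp [hy, this]
  · by_cases h2 : c = y
    · subst h2; simp [hx]
    · rw [Equiv.swap_apply_of_ne_of_ne h1 h2]; simp [h1, h2]

lemma sw_eq_self {x y : ι} {S : Finset ι} (h : x ∈ S ↔ y ∈ S) : sw x y S = S := by
  ext c
  rw [mem_sw]
  by_cases h1 : c = x
  · subst h1; simp [h]
  · by_cases h2 : c = y
    · subst h2; simp [h]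
    · rw [Equiv.swap_apply_of_ne_of_ne h1 h2]

lemma sw_comm (x y : ι) (S : Finset ι) : sw x y S = sw y x S := by
  unfold sw; rw [Equiv.swap_comm]

lemma sw_mem_powersetCard {F S : Finset ι} {k : ℕ} {x y : ι} (hx : x ∈ F) (hy : y ∈ F)
    (hS : S ∈ F.powersetCard k) : sw x y S ∈ F.powersetCard k := by
  rw [mem_powersetCard] at hS ⊢
  refine ⟨fun c hc => ?_, by rw [card_sw, hS.2]⟩
  rw [mem_sw] at hc
  have := hS.1 hc
  by_cases h1 : c = x
  · rw [h1]; exact hx
  · by_cases h2 : c = y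
    · rw [h2]; exact hy
    · rwa [Equiv.swap_apply_of_ne_of_ne h1 h2] at this

lemma sum_sw {F : Finset ι} {k : ℕ} {x y : ι} (hx : x ∈ F) (hy : y ∈ F) (φ : Finset ι → ℝ) :
    ∑ S ∈ F.powersetCard k, φ (sw x y S) = ∑ S ∈ F.powersetCard k, φ S :=
  Finset.sum_bij' (fun S _ => sw x y S) (fun S _ => sw x y S)
    (fun _ hS => sw_mem_powersetCard hx hy hS) (fun _ hS => sw_mem_powersetCard hx hy hS)
    (fun S _ => sw_sw x y S) (fun S _ => sw_sw x y S) (fun _ _ => rfl)

/-- Indicator that exactly one of `w`, `x` lies in `S`. -/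
def dI (w x : ι) (S : Finset ι) : ℝ := if (w ∈ S ↔ x ∈ S) then 0 else 1

lemma dI_comm (w x : ι) (S : Finset ι) : dI w x S = dI x w S := by
  unfold dI; simp only [iff_comm]

lemma dI_self (w : ι) (S : Finset ι) : dI w w S = 0 := by simp [dI]

lemma dI_sw {w x y : ι} (hx : w ≠ x) (hy : w ≠ y) (S : Finset ι) :
    dI w x (sw x y S) = dI w y S := by
  unfold dI
  simp only [mem_sw, Equiv.swap_apply_of_ne_of_ne hx hy, Equiv.swap_apply_left]

lemma dI_sub_sq (w x y : ι) (S : Finset ι) : (dI w x S - dI w y S) ^ 2 = dI x y S := by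
  unfold dI
  by_cases h1 : w ∈ S <;> by_cases h2 : x ∈ S <;> by_cases h3 : y ∈ S <;> simp [h1, h2, h3]

lemma sum_dI {F S : Finset ι} (hS : S ⊆ F) :
    ∑ w ∈ F, ∑ x ∈ F, dI w x S = 2 * S.card * (F.card - S.card) := by
  have e : ∀ w x, dI w x S = (if w ∈ S then 1 else 0) + (if x ∈ S then 1 else 0) -
      2 * ((if w ∈ S then 1 else 0) * (if x ∈ S then 1 else 0)) := by
    intro w x; unfold dI
    by_cases h1 : w ∈ S <;> by_cases h2 : x ∈ S <;> simp [h1, h2]
    norm_num
  have c : ∑ w ∈ F, (if w ∈ S then (1 : ℝ) else 0) = S.card := by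
    rw [Finset.sum_ite_mem, inter_eq_right.2 hS]; simp
  simp only [e, Finset.sum_sub_distrib, Finset.sum_add_distrib, ← Finset.mul_sum, c,
    ← Finset.sum_mul, Finset.sum_const, nsmul_eq_mul]
  ring

/-- The line-graph estimate. -/
lemma line_graph_gap (F : Finset ι) (a : ι → ι → ℝ) (hs : ∀ w x, a w x = a x w)
    (hd : ∀ w, a w w = 0) (h0 : ∑ w ∈ F, ∑ x ∈ F, a w x = 0) :
    (F.card - 1 : ℝ) * ∑ w ∈ F, ∑ x ∈ F, a w x ^ 2 ≤
      ∑ w ∈ F, ∑ x ∈ F.erase w, ∑ y ∈ F.erase w, (a w x - a w y) ^ 2 := by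
  rcases F.eq_empty_or_nonempty with rfl | hF
  · simp
  have hm : (1 : ℝ) ≤ F.card := by exact_mod_cast hF.card_pos
  set m : ℝ := (F.card : ℝ) with hmdef
  set r : ι → ℝ := fun w => ∑ x ∈ F, a w x with hr
  set S2 : ℝ := ∑ w ∈ F, ∑ x ∈ F, a w x ^ 2 with hS2
  set R2 : ℝ := ∑ w ∈ F, r w ^ 2 with hR2
  have h1 : ∑ w ∈ F, ∑ x ∈ F.erase w, ∑ y ∈ F.erase w, (a w x - a w y) ^ 2 =
      2 * (m - 1) * S2 - 2 * R2 := by
    rw [hS2, hR2, Finset.mul_sum, Finset.mul_sum, ← Finset.sum_sub_distrib]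
    refine Finset.sum_congr rfl fun w hw => ?_
    have e1 : ∑ x ∈ F.erase w, a w x = r w := by
      rw [hr]; exact Finset.sum_erase F (hd w)
    have e2 : ∑ x ∈ F.erase w, a w x ^ 2 = ∑ x ∈ F, a w x ^ 2 :=
      Finset.sum_erase F (by simp [hd w])
    have e3 : ((F.erase w).card : ℝ) = m - 1 := by
      rw [card_erase_of_mem hw, Nat.cast_sub (Finset.card_pos.2 hF)]; simp [hmdef]
    have e4 : ∀ x y, (a w x - a w y) ^ 2 = a w x ^ 2 + a w y ^ 2 - 2 * (a w x * a w y) := by
      intro x y; ring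
    simp only [e4, Finset.sum_sub_distrib, Finset.sum_add_distrib, ← Finset.mul_sum,
      ← Finset.sum_mul, Finset.sum_const, nsmul_eq_mul, e1, e2, e3]
    ring
  have h2 : ∑ w ∈ F, (2 * r w) ^ 2 ≤
      ∑ w ∈ F, ∑ x ∈ F, ((m - 1) * a w x - (r w + r x)) ^ 2 := by
    refine Finset.sum_le_sum fun w hw => ?_
    have := Finset.single_le_sum (f := fun x => ((m - 1) * a w x - (r w + r x)) ^ 2)
      (fun x _ => sq_nonneg _) hw
    simp only [hd w] at this
    nlinarith [this]
  have h3 : ∑ w ∈ F, ∑ x ∈ F, a w x * r x = R2 := by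
    rw [Finset.sum_comm, hR2]
    refine Finset.sum_congr rfl fun x _ => ?_
    rw [← Finset.sum_mul, sq]
    congr 1
    exact Finset.sum_congr rfl fun w _ => hs w x
  have h4 : ∑ w ∈ F, ∑ x ∈ F, a w x * r w = R2 := by
    rw [hR2]
    refine Finset.sum_congr rfl fun w _ => ?_
    rw [← Finset.sum_mul, sq]
  have h5 : ∑ w ∈ F, r w = 0 := h0
  have h6 : ∑ w ∈ F, ∑ x ∈ F, ((m - 1) * a w x - (r w + r x)) ^ 2 =
      (m - 1) ^ 2 * S2 - 4 * (m - 1) * R2 + 2 * m * R2 := by
    have e : ∀ w x, ((m - 1) * a w x - (r w + r x)) ^ 2 =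
        (m - 1) ^ 2 * a w x ^ 2 - 2 * (m - 1) * (a w x * r w) - 2 * (m - 1) * (a w x * r x) +
          (r w ^ 2 + r x ^ 2 + 2 * (r w * r x)) := by
      intro w x; ring
    simp only [e, Finset.sum_sub_distrib, Finset.sum_add_distrib, ← Finset.mul_sum, h3, h4, h5,
      Finset.sum_const, nsmul_eq_mul, ← hS2, ← hR2, ← hmdef, mul_zero]
    ring
  have h7 : ∑ w ∈ F, (2 * r w) ^ 2 = 4 * R2 := by
    rw [hR2, Finset.mul_sum]
    exact Finset.sum_congr rfl fun w _ => by ring
  rw [h6, h7] at h2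
  have hS : 0 ≤ S2 := Finset.sum_nonneg fun _ _ => Finset.sum_nonneg fun _ _ => sq_nonneg _
  have hR : 0 ≤ R2 := Finset.sum_nonneg fun _ _ => sq_nonneg _
  rw [h1]
  have h8 : 2 * m * R2 ≤ (m - 1) ^ 2 * S2 := by nlinarith
  have h9 : m * (2 * R2) ≤ m * ((m - 1) * S2) := by nlinarith
  have h10 := le_of_mul_le_mul_left h9 (by linarith)
  linarith

/-- The key fibre inequality: the negative parts are dominated by the exchange energy. -/
theorem slice_neg_le (F : Finset ι) (k : ℕ) (g : Finset ι → ℝ)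
    (hg : ∑ S ∈ F.powersetCard k, g S = 0) :
    ∑ w ∈ F, ∑ x ∈ F, (∑ S ∈ F.powersetCard k, dI w x S * g S) ^ 2 /
        (∑ S ∈ F.powersetCard k, dI w x S) ≤
      ∑ w ∈ F, ∑ x ∈ F, ∑ S ∈ F.powersetCard k, ((g S - g (sw w x S)) / 2) ^ 2 := by
  set Φ := F.powersetCard k with hΦ
  set a : ι → ι → ℝ := fun w x => ∑ S ∈ Φ, dI w x S * g S with ha
  set R : ι → ι → ℝ := fun w x => ∑ S ∈ Φ, dI w x S with hR
  set e : ι → ι → ℝ := fun w x => ∑ S ∈ Φ, ((g S - g (sw w x S)) / 2) ^ 2 with he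
  show ∑ w ∈ F, ∑ x ∈ F, a w x ^ 2 / R w x ≤ ∑ w ∈ F, ∑ x ∈ F, e w x
  have he0 : ∀ w x, 0 ≤ e w x := fun _ _ => Finset.sum_nonneg fun _ _ => sq_nonneg _
  have hE : 0 ≤ ∑ w ∈ F, ∑ x ∈ F, e w x :=
    Finset.sum_nonneg fun _ _ => Finset.sum_nonneg fun _ _ => he0 _ _
  have has : ∀ w x, a w x = a x w := fun w x =>
    Finset.sum_congr rfl fun S _ => by rw [dI_comm]
  have had : ∀ w, a w w = 0 := fun w => by simp [ha, dI_self]
  have hRs : ∀ w x, R w x = R x w := fun w x =>
    Finset.sum_congr rfl fun S _ => by rw [dI_comm]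
  have hR1 : ∀ w, ∀ x ∈ F, ∀ y ∈ F, w ≠ x → w ≠ y → R w x = R w y := by
    intro w x hx y hy h1 h2
    show ∑ S ∈ Φ, dI w x S = ∑ S ∈ Φ, dI w y S
    rw [← sum_sw hx hy (dI w x)]
    exact Finset.sum_congr rfl fun S _ => dI_sw h1 h2 S
  by_cases hm : ∀ w ∈ F, ∀ x ∈ F, w = x
  · refine le_trans (le_of_eq ?_) hE
    refine Finset.sum_eq_zero fun w hw => Finset.sum_eq_zero fun x hx => ?_
    rw [← hm w hw x hx, had]; simp
  push Not at hm
  obtain ⟨w0, hw0, x0, hx0, hne⟩ := hm
  have hR2 : ∀ w ∈ F, ∀ x ∈ F, w ≠ x → R w x = R w0 x0 := by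
    intro w hw x hx h
    by_cases h1 : x = w0
    · subst h1
      rw [hRs, hR1 x w hw x0 hx0 h.symm hne]
    · rw [hRs, hR1 x w hw w0 hw0 h.symm h1, hRs, hR1 w0 x hx x0 hx0 (Ne.symm h1) hne]
  set R0 := R w0 x0 with hR0
  have hR0n : 0 ≤ R0 := Finset.sum_nonneg fun S _ => by unfold dI; split_ifs <;> norm_num
  have h0 : ∑ w ∈ F, ∑ x ∈ F, a w x = 0 := by
    have : ∑ w ∈ F, ∑ x ∈ F, a w x = ∑ S ∈ Φ, (∑ w ∈ F, ∑ x ∈ F, dI w x S) * g S := by
      simp only [ha, Finset.sum_mul]
      rw [Finset.sum_congr rfl (fun w _ => Finset.sum_comm), Finset.sum_comm]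
    rw [this, Finset.sum_congr rfl (g := fun S => (2 * k * (F.card - k)) * g S), ← Finset.mul_sum,
      hg, mul_zero]
    intro S hS
    rw [sum_dI (mem_powersetCard.1 hS).1, (mem_powersetCard.1 hS).2]
  have hgap := line_graph_gap F a has had h0
  have hdiff : ∀ w, ∀ x ∈ F, ∀ y ∈ F, w ≠ x → w ≠ y → (a w x - a w y) ^ 2 ≤ R0 * e x y := by
    intro w x hx y hy h1 h2
    by_cases hxy : x = y
    · subst hxy; simp only [sub_self]; have := mul_nonneg hR0n (he0 x x); simpa using this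
    have s1 : a w x - a w y = ∑ S ∈ Φ, (dI w x S - dI w y S) * ((g S - g (sw x y S)) / 2) := by
      have t1 : ∑ S ∈ Φ, dI w x S * g (sw x y S) = a w y := by
        rw [← sum_sw hx hy]
        exact Finset.sum_congr rfl fun S _ => by rw [dI_sw h1 h2, sw_sw]
      have t2 : ∑ S ∈ Φ, dI w y S * g (sw x y S) = a w x := by
        rw [← sum_sw hx hy]
        exact Finset.sum_congr rfl fun S _ => by rw [sw_sw, sw_comm, dI_sw h2 h1]
      have e : ∀ S, (dI w x S - dI w y S) * ((g S - g (sw x y S)) / 2) =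
          (dI w x S * g S - dI w y S * g S - dI w x S * g (sw x y S) +
            dI w y S * g (sw x y S)) / 2 := fun S => by ring
      simp only [e, ← Finset.sum_div, Finset.sum_add_distrib, Finset.sum_sub_distrib, t1, t2]
      show _ = (a w x - a w y - a w y + a w x) / 2
      ring
    rw [s1]
    refine le_trans (Finset.sum_mul_sq_le_sq_mul_sq _ _ _) (le_of_eq ?_)
    congr 1
    rw [← hR2 x hx y hy hxy]
    exact Finset.sum_congr rfl fun S _ => dI_sub_sq w x y S
  have hup : ∑ w ∈ F, ∑ x ∈ F.erase w, ∑ y ∈ F.erase w, (a w x - a w y) ^ 2 ≤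
      (F.card - 1 : ℝ) * (R0 * ∑ x ∈ F, ∑ y ∈ F, e x y) := by
    calc ∑ w ∈ F, ∑ x ∈ F.erase w, ∑ y ∈ F.erase w, (a w x - a w y) ^ 2
        ≤ ∑ w ∈ F, ∑ x ∈ F.erase w, ∑ y ∈ F, R0 * e x y := by
          refine Finset.sum_le_sum fun w _ => Finset.sum_le_sum fun x hx => ?_
          refine le_trans (Finset.sum_le_sum fun y hy => hdiff w x (mem_of_mem_erase hx) y
            (mem_of_mem_erase hy) (ne_of_mem_erase hx).symm (ne_of_mem_erase hy).symm) ?_
          exact Finset.sum_le_sum_of_subset_of_nonneg (erase_subset _ _)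
            fun y _ _ => mul_nonneg hR0n (he0 _ _)
      _ = ∑ x ∈ F, ∑ w ∈ F.erase x, ∑ y ∈ F, R0 * e x y := by
          apply Finset.sum_comm'
          intro w x
          simp only [mem_erase]
          tauto
      _ = (F.card - 1 : ℝ) * (R0 * ∑ x ∈ F, ∑ y ∈ F, e x y) := by
          rw [Finset.mul_sum, Finset.mul_sum]
          refine Finset.sum_congr rfl fun x hx => ?_
          rw [Finset.sum_const, card_erase_of_mem hx, nsmul_eq_mul,
            Nat.cast_sub (Finset.card_pos.2 ⟨x, hx⟩), ← Finset.mul_sum]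
          simp
  have hm2 : (0 : ℝ) < F.card - 1 := by
    have : 1 < F.card := Finset.one_lt_card.2 ⟨w0, hw0, x0, hx0, hne⟩
    have : (1 : ℝ) < F.card := by exact_mod_cast this
    linarith
  have hfin := le_of_mul_le_mul_left (hgap.trans hup) hm2
  have hl : ∑ w ∈ F, ∑ x ∈ F, a w x ^ 2 / R w x = (∑ w ∈ F, ∑ x ∈ F, a w x ^ 2) / R0 := by
    rw [Finset.sum_div]
    refine Finset.sum_congr rfl fun w hw => ?_
    rw [Finset.sum_div]
    refine Finset.sum_congr rfl fun x hx => ?_
    by_cases h : w = x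
    · subst h; rw [had]; simp
    · rw [hR2 w hw x hx h]
  rw [hl]
  rcases hR0n.eq_or_lt with h | h
  · rw [← h]; simpa using hE
  · rw [div_le_iff₀ h]; linarith

end Johnson

end Crest.Agent.R299
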