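import Mathlib

set_option autoImplicit false

namespace Crest.Agent.R299

open Finset

variable {α : Type*} [Fintype α] [DecidableEq α]

omit [Fintype α] [DecidableEq α] in
lemma dirichlet (Ω : Finset α) (P : α → α → ℝ) (hs : ∀ x y, P x y = P y x)
    (hr : ∀ x ∈ Ω, ∑ y ∈ Ω, P x y = 1) (f : α → ℝ) :
    ∑ x ∈ Ω, f x * (f x - ∑ y ∈ Ω, P x y * f y) =
      (∑ x ∈ Ω, ∑ y ∈ Ω, P x y * (f x - f y) ^ 2) / 2 := by
  have e1 : ∑ x ∈ Ω, ∑ y ∈ Ω, P x y * f x ^ 2 = ∑ x ∈ Ω, f x ^ 2 :=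
    Finset.sum_congr rfl fun x hx => by rw [← Finset.sum_mul, hr x hx, one_mul]
  have e2 : ∑ x ∈ Ω, ∑ y ∈ Ω, P x y * f y ^ 2 = ∑ x ∈ Ω, f x ^ 2 := by
    rw [Finset.sum_comm, ← e1]
    exact Finset.sum_congr rfl fun x _ => Finset.sum_congr rfl fun y _ => by rw [hs]
  have e3 : ∀ x y, P x y * (f x - f y) ^ 2 =
      P x y * f x ^ 2 + P x y * f y ^ 2 - 2 * (f x * (P x y * f y)) := fun x y => by ring
  simp only [e3, Finset.sum_sub_distrib, Finset.sum_add_distrib, ← Finset.mul_sum, e1, e2, mul_sub,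
    ← sq]
  ring

theorem mixing (Ω : Finset α) (P : Matrix α α ℝ) (Q : α → α → ℝ)
    (hP : ∀ x y, P x y = (if x = y then 1 / 2 else 0) + Q x y)
    (hQ : ∀ x y, 0 ≤ Q x y) (hs : ∀ x y, Q x y = Q y x)
    (hr : ∀ x ∈ Ω, ∑ y ∈ Ω, Q x y = 1 / 2) (hz : ∀ x ∈ Ω, ∀ y, y ∉ Ω → Q x y = 0)
    (K : ℝ) (hK : 1 ≤ K)
    (hpoi : ∀ f : α → ℝ, (Ω.card : ℝ) * (∑ x ∈ Ω, f x ^ 2) - (∑ x ∈ Ω, f x) ^ 2 ≤
      K * Ω.card * ∑ x ∈ Ω, f x * (f x - ∑ y ∈ Ω, P x y * f y))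
    {G : α} (hG : G ∈ Ω) (t : ℕ) :
    (∑ y, |(P ^ t) G y - if y ∈ Ω then 1 / (Ω.card : ℝ) else 0|) ^ 2 ≤
      Ω.card * (1 - 1 / K) ^ t := by
  have hN : (0 : ℝ) < Ω.card := by exact_mod_cast Finset.card_pos.2 ⟨G, hG⟩
  have hK0 : 0 < K := by linarith
  have hPs : ∀ x y, P x y = P y x := fun x y => by rw [hP, hP, hs]; simp only [eq_comm]
  have hPf : ∀ f : α → ℝ, ∀ x ∈ Ω, ∑ y ∈ Ω, P x y * f y = f x / 2 + ∑ y ∈ Ω, Q x y * f y := by
    intro f x hx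
    simp only [hP, add_mul, Finset.sum_add_distrib, ite_mul, zero_mul, Finset.sum_ite_eq, hx,
      if_true]
    ring
  have hPr : ∀ x ∈ Ω, ∑ y ∈ Ω, P x y = 1 := fun x hx => by
    have := hPf (fun _ => 1) x hx
    simp only [mul_one, hr x hx] at this
    linarith
  have hPz : ∀ x ∈ Ω, ∀ y, y ∉ Ω → P x y = 0 := fun x hx y hy => by
    rw [hP, hz x hx y hy, if_neg (fun (t : x = y) => hy (t ▸ hx))]; simp
  have supp : ∀ t : ℕ, ∀ y, y ∉ Ω → (P ^ t) G y = 0 := by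
    intro t
    induction t with
    | zero => intro y hy; rw [pow_zero, Matrix.one_apply_ne (fun (t : G = y) => hy (t ▸ hG))]
    | succ t ih =>
      intro y hy
      rw [pow_succ, Matrix.mul_apply]
      refine Finset.sum_eq_zero fun x _ => ?_
      by_cases hx : x ∈ Ω
      · rw [hPz x hx y hy, mul_zero]
      · rw [ih x hx, zero_mul]
  set e : ℕ → α → ℝ := fun t y => (P ^ t) G y - 1 / (Ω.card : ℝ) with he
  have step : ∀ t : ℕ, ∀ y ∈ Ω, e (t + 1) y = ∑ x ∈ Ω, P y x * e t x := by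
    intro t y hy
    simp only [he, mul_sub, Finset.sum_sub_distrib, ← Finset.sum_mul, hPr y hy, one_mul]
    rw [pow_succ, Matrix.mul_apply, ← Finset.sum_subset (subset_univ Ω)
      (fun x _ hx => by rw [supp t x hx, zero_mul])]
    congr 1
    exact Finset.sum_congr rfl fun x _ => by rw [hPs, mul_comm]
  have mean0 : ∀ t : ℕ, ∑ y ∈ Ω, e t y = 0 := by
    intro t
    induction t with
    | zero =>
      simp only [he, pow_zero, Matrix.one_apply, Finset.sum_sub_distrib, Finset.sum_ite_eq, hG,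
        if_true, Finset.sum_const, nsmul_eq_mul]
      field_simp; ring
    | succ t ih =>
      rw [Finset.sum_congr rfl (step t), Finset.sum_comm, ← ih]
      refine Finset.sum_congr rfl fun x hx => ?_
      rw [← Finset.sum_mul, Finset.sum_congr rfl (fun y _ => hPs y x), hPr x hx, one_mul]
  have contr : ∀ f : α → ℝ, ∑ y ∈ Ω, f y = 0 →
      ∑ y ∈ Ω, (∑ x ∈ Ω, P y x * f x) ^ 2 ≤ (1 - 1 / K) * ∑ y ∈ Ω, f y ^ 2 := by
    intro f hf
    have h1 := hpoi f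
    rw [hf] at h1
    have h2 : ∑ y ∈ Ω, (∑ x ∈ Ω, Q y x * f x) ^ 2 ≤ (∑ y ∈ Ω, f y ^ 2) / 4 := by
      have : ∀ y ∈ Ω, (∑ x ∈ Ω, Q y x * f x) ^ 2 ≤ (∑ x ∈ Ω, Q y x * f x ^ 2) / 2 := by
        intro y hy
        set m := ∑ x ∈ Ω, Q y x * f x with hm
        have h0 : 0 ≤ ∑ x ∈ Ω, Q y x * (f x - 2 * m) ^ 2 :=
          Finset.sum_nonneg fun x _ => mul_nonneg (hQ _ _) (sq_nonneg _)
        have e3 : ∀ x, Q y x * (f x - 2 * m) ^ 2 =
            Q y x * f x ^ 2 - 4 * m * (Q y x * f x) + 4 * m ^ 2 * Q y x := fun x => by ring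
        simp only [e3, Finset.sum_add_distrib, Finset.sum_sub_distrib, ← Finset.mul_sum, ← hm,
          hr y hy] at h0
        nlinarith
      refine (Finset.sum_le_sum this).trans (le_of_eq ?_)
      rw [← Finset.sum_div, Finset.sum_comm]
      have : ∀ x ∈ Ω, ∑ y ∈ Ω, Q y x * f x ^ 2 = f x ^ 2 / 2 := fun x hx => by
        rw [← Finset.sum_mul, Finset.sum_congr rfl (fun y _ => hs y x), hr x hx]; ring
      rw [Finset.sum_congr rfl this, ← Finset.sum_div]; ring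
    have r1 : ∑ x ∈ Ω, f x * (f x - ∑ y ∈ Ω, P x y * f y) =
        ∑ y ∈ Ω, f y * (f y - (f y / 2 + ∑ x ∈ Ω, Q y x * f x)) :=
      Finset.sum_congr rfl (fun y hy => by rw [hPf f y hy])
    have r2 : ∑ y ∈ Ω, (∑ x ∈ Ω, P y x * f x) ^ 2 =
        ∑ y ∈ Ω, (f y / 2 + ∑ x ∈ Ω, Q y x * f x) ^ 2 :=
      Finset.sum_congr rfl (fun y hy => by rw [hPf f y hy])
    rw [r1] at h1
    rw [r2]
    have e4 : ∑ y ∈ Ω, (f y / 2 + ∑ x ∈ Ω, Q y x * f x) ^ 2 = (∑ y ∈ Ω, f y ^ 2) / 4 +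
        ∑ y ∈ Ω, f y * ∑ x ∈ Ω, Q y x * f x + ∑ y ∈ Ω, (∑ x ∈ Ω, Q y x * f x) ^ 2 := by
      rw [Finset.sum_div, ← Finset.sum_add_distrib, ← Finset.sum_add_distrib]
      exact Finset.sum_congr rfl fun y _ => by ring
    have e5 : ∑ y ∈ Ω, f y * (f y - (f y / 2 + ∑ x ∈ Ω, Q y x * f x)) =
        (∑ y ∈ Ω, f y ^ 2) / 2 - ∑ y ∈ Ω, f y * ∑ x ∈ Ω, Q y x * f x := by
      rw [Finset.sum_div, ← Finset.sum_sub_distrib]
      exact Finset.sum_congr rfl fun y _ => by ring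
    rw [e5] at h1
    rw [e4]
    set A := ∑ y ∈ Ω, f y ^ 2
    set B := ∑ y ∈ Ω, f y * ∑ x ∈ Ω, Q y x * f x
    have h3 : A ≤ K * (A / 2 - B) := by
      have : (Ω.card : ℝ) * A ≤ Ω.card * (K * (A / 2 - B)) := by linarith
      exact le_of_mul_le_mul_left this hN
    have h4 : A / K ≤ A / 2 - B := by rw [div_le_iff₀ hK0]; linarith
    have h5 : (1 - 1 / K) * A = A - A / K := by ring
    linarith
  have hk1 : 0 ≤ 1 - 1 / K := by rw [sub_nonneg, div_le_one hK0]; exact hK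
  have norm : ∀ t : ℕ, ∑ y ∈ Ω, e t y ^ 2 ≤ (1 - 1 / K) ^ t := by
    intro t
    induction t with
    | zero =>
      have : ∀ y, e 0 y ^ 2 = (if G = y then 1 else 0) * (1 - 2 / (Ω.card : ℝ)) +
          (1 / (Ω.card : ℝ)) ^ 2 := fun y => by
        simp only [he, pow_zero, Matrix.one_apply]
        split_ifs <;> ring
      simp only [this, Finset.sum_add_distrib, ite_mul, zero_mul, Finset.sum_ite_eq, hG, if_true,
        Finset.sum_const, nsmul_eq_mul, pow_zero, one_mul]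
      have : (Ω.card : ℝ) * (1 / (Ω.card : ℝ)) ^ 2 = 1 / Ω.card := by field_simp
      have h2 : 2 / (Ω.card : ℝ) = 2 * (1 / Ω.card) := by ring
      have h3 : 0 < 1 / (Ω.card : ℝ) := by positivity
      linarith
    | succ t ih =>
      rw [Finset.sum_congr rfl (fun y hy => by rw [step t y hy])]
      refine (contr _ (mean0 t)).trans ?_
      rw [pow_succ, mul_comm]
      exact mul_le_mul_of_nonneg_right ih hk1
  have : ∑ y, |(P ^ t) G y - if y ∈ Ω then 1 / (Ω.card : ℝ) else 0| = ∑ y ∈ Ω, |e t y| := by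
    rw [← Finset.sum_subset (subset_univ Ω) (fun y _ hy => by rw [supp t y hy, if_neg hy]; simp)]
    exact Finset.sum_congr rfl fun y hy => by rw [if_pos hy]
  rw [this]
  refine sq_sum_le_card_mul_sum_sq.trans ?_
  simp only [sq_abs]
  exact mul_le_mul_of_nonneg_left (norm t) hN.le

end Crest.Agent.R299
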