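import Crest.Agent.R299.Gap
import Crest.Agent.R299.Mix
import Crest.Prelude.Def_SwitchChain

set_option autoImplicit false

namespace Crest.Agent.R299

open Finset Crest.SwitchChain

variable {n : ℕ}

/-- The edge between two distinct vertices. -/
def ed (a b : Fin n) (h : a ≠ b) : Edge n := ⟨s(a, b), by simpa using h⟩

lemma ed_comm {a b : Fin n} (h : a ≠ b) : ed a b h = ed b a h.symm :=
  Subtype.ext Sym2.eq_swap

lemma ed_eq_iff {a b c e : Fin n} {h : a ≠ b} {h' : c ≠ e} :
    ed a b h = ed c e h' ↔ (a = c ∧ b = e) ∨ (a = e ∧ b = c) := by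
  unfold ed
  rw [Subtype.mk.injEq, Sym2.eq_iff]

lemma mem_ed {a b v : Fin n} {h : a ≠ b} : v ∈ (ed a b h).1 ↔ v = a ∨ v = b := Sym2.mem_iff

lemma exists_ed (e : Edge n) : ∃ (a b : Fin n) (h : a ≠ b), e = ed a b h := by
  obtain ⟨e, he⟩ := e
  induction e using Sym2.ind with
  | _ a b => exact ⟨a, b, by simpa using he, rfl⟩

lemma exists_ed_of_mem {e : Edge n} {a : Fin n} (ha : a ∈ e.1) :
    ∃ (b : Fin n) (h : a ≠ b), e = ed a b h := by
  obtain ⟨p, q, h, rfl⟩ := exists_ed e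
  rcases mem_ed.1 ha with rfl | rfl
  · exact ⟨q, h, rfl⟩
  · exact ⟨p, h.symm, ed_comm h⟩

lemma edge_ext {E E' : Finset (Edge n)} (h : ∀ a b (h : a ≠ b), ed a b h ∈ E ↔ ed a b h ∈ E') :
    E = E' := by
  ext e
  obtain ⟨a, b, hab, rfl⟩ := exists_ed e
  exact h a b hab

/-- The neighbourhoods of an edge set. -/
noncomputable def nb (E : Finset (Edge n)) (a : Fin n) : Finset (Fin n) := by
  classical exact univ.filter fun b => ∃ h : a ≠ b, ed a b h ∈ E

lemma mem_nb {E : Finset (Edge n)} {a b : Fin n} : b ∈ nb E a ↔ ∃ h : a ≠ b, ed a b h ∈ E := by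
  classical
  simp [nb]

lemma card_nb (E : Finset (Edge n)) (a : Fin n) : (nb E a).card = deg E a := by
  unfold deg
  refine Finset.card_bij (fun b hb => ed a b (mem_nb.1 hb).choose) ?_ ?_ ?_
  · intro b hb
    exact mem_filter.2 ⟨(mem_nb.1 hb).choose_spec, mem_ed.2 (Or.inl rfl)⟩
  · intro b hb c hc h
    rcases ed_eq_iff.1 h with t | t
    · exact t.2
    · exact t.2.trans t.1
  · intro e he
    obtain ⟨b, h, rfl⟩ := exists_ed_of_mem (mem_filter.1 he).2
    exact ⟨b, mem_nb.2 ⟨h, (mem_filter.1 he).1⟩, rfl⟩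

variable {d : Fin n → ℕ}

/-- The edge set of a neighbourhood system. -/
noncomputable def toE (N : GX d) : Finset (Edge n) := by
  classical exact univ.filter fun e => ∃ a b, e.1 = s(a, b) ∧ b ∈ N.1 a

lemma ed_mem_toE {N : GX d} {a b : Fin n} {h : a ≠ b} : ed a b h ∈ toE N ↔ b ∈ N.1 a := by
  classical
  simp only [toE, mem_filter, mem_univ, true_and, ed, Sym2.eq_iff]
  constructor
  · rintro ⟨p, q, ⟨rfl, rfl⟩ | ⟨rfl, rfl⟩, t⟩
    · exact t
    · exact N.symm.1 t
  · intro t; exact ⟨a, b, Or.inl ⟨rfl, rfl⟩, t⟩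

lemma nb_toE (N : GX d) (a : Fin n) : nb (toE N) a = N.1 a := by
  ext b
  rw [mem_nb]
  constructor
  · rintro ⟨h, t⟩; exact ed_mem_toE.1 t
  · intro t; exact ⟨fun s => N.irrefl a (s ▸ t), ed_mem_toE.2 t⟩

lemma mem_realizations {E : Finset (Edge n)} : E ∈ realizations d ↔ ∀ v, deg E v = d v := by
  simp [realizations]

lemma toE_mem (N : GX d) : toE N ∈ realizations d :=
  mem_realizations.2 fun v => by rw [← card_nb, nb_toE, N.card]

lemma toE_inj {N N' : GX d} (h : toE N = toE N') : N = N' :=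
  GX.ext' fun a b => by rw [← nb_toE, ← nb_toE, h]

lemma sum_toE (φ : Finset (Edge n) → ℝ) : ∑ N : GX d, φ (toE N) = ∑ E ∈ realizations d, φ E := by
  refine Finset.sum_bij (fun N _ => toE N) (fun N _ => toE_mem N)
    (fun _ _ _ _ h => toE_inj h) ?_ (fun _ _ => rfl)
  intro E hE
  refine ⟨⟨nb E, ?_, ?_, ?_⟩, mem_univ _, ?_⟩
  · intro a b h
    obtain ⟨h1, h2⟩ := mem_nb.1 h
    exact mem_nb.2 ⟨h1.symm, ed_comm h1 ▸ h2⟩
  · intro a h
    exact (mem_nb.1 h).choose rfl
  · intro a; rw [card_nb, mem_realizations.1 hE]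
  · refine edge_ext fun a b h => ?_
    rw [ed_mem_toE]
    show b ∈ nb E a ↔ _
    rw [mem_nb]
    exact ⟨fun t => t.choose_spec, fun t => ⟨h, t⟩⟩

lemma mem_pmSet {S : Finset (Fin n)} {F : Finset (Edge n)} :
    F ∈ pmSet S ↔ F.card = 2 ∧ (∀ e ∈ F, ∀ v : Fin n, v ∈ e.1 → v ∈ S) ∧
      ∀ v ∈ S, (F.filter fun e => v ∈ e.1).card = 1 := by
  simp only [pmSet, mem_filter, mem_powersetCard, subset_univ, true_and]

lemma pm_mem {a b c e : Fin n} (h : Dist a b c e) {S : Finset (Fin n)} (hS : S = {a, b, c, e}) :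
    ({ed a b h.1, ed c e h.2.2.2.2.2} : Finset (Edge n)) ∈ pmSet S := by
  obtain ⟨h1, h2, h3, h4, h5, h6⟩ := id h
  have hne : ed a b h1 ≠ ed c e h6 := by rw [Ne, ed_eq_iff]; tauto
  refine mem_pmSet.2 ⟨card_pair hne, ?_, ?_⟩
  · intro t ht v hv
    simp only [mem_insert, mem_singleton] at ht
    rw [hS]
    rcases ht with rfl | rfl <;> rcases mem_ed.1 hv with rfl | rfl <;> simp
  · intro v hv
    rw [hS] at hv
    simp only [mem_insert, mem_singleton] at hv
    rw [filter_insert, filter_singleton]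
    simp only [mem_ed]
    rcases hv with rfl | rfl | rfl | rfl <;>
      simp [h1, h2, h3, h4, h5, h6, h1.symm, h2.symm, h3.symm, h4.symm, h5.symm, h6.symm]

lemma pm_struct {S : Finset (Fin n)} {F : Finset (Edge n)} (hF : F ∈ pmSet S) {a : Fin n}
    (ha : a ∈ S) : ∃ (p r t : Fin n) (h : Dist a p r t), p ∈ S ∧ r ∈ S ∧ t ∈ S ∧
      F = {ed a p h.1, ed r t h.2.2.2.2.2} := by
  obtain ⟨h1, h2, h3⟩ := mem_pmSet.1 hF
  obtain ⟨e1, he1⟩ := card_eq_one.1 (h3 a ha)
  have m1 : e1 ∈ F.filter fun e => a ∈ e.1 := he1 ▸ mem_singleton_self e1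
  rw [mem_filter] at m1
  obtain ⟨e2, he2⟩ : ∃ e2, F.erase e1 = {e2} :=
    card_eq_one.1 (by rw [card_erase_of_mem m1.1, h1])
  have m2 : e2 ∈ F.erase e1 := he2 ▸ mem_singleton_self e2
  rw [mem_erase] at m2
  have hFe : F = {e1, e2} := by rw [← insert_erase m1.1, he2]
  obtain ⟨p, hap, rfl⟩ := exists_ed_of_mem m1.2
  obtain ⟨r, t, hrt, rfl⟩ := exists_ed e2
  have hp : p ∈ S := h2 _ m1.1 p (mem_ed.2 (Or.inr rfl))
  have uniq : ∀ v ∈ S, v ∈ (ed a p hap).1 → v ∉ (ed r t hrt).1 := by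
    intro v hv t1 t2
    exact m2.1 (card_le_one.1 (h3 v hv).le _ (mem_filter.2 ⟨m2.2, t2⟩) _
      (mem_filter.2 ⟨m1.1, t1⟩))
  have u1 := uniq a ha (mem_ed.2 (Or.inl rfl))
  have u2 := uniq p hp (mem_ed.2 (Or.inr rfl))
  rw [mem_ed, not_or] at u1 u2
  exact ⟨p, r, t, ⟨hap, u1.1, u1.2, u2.1, u2.2, hrt⟩, hp, h2 _ m2.2 r (mem_ed.2 (Or.inl rfl)),
    h2 _ m2.2 t (mem_ed.2 (Or.inr rfl)), hFe⟩

lemma card_pmSet {S : Finset (Fin n)} (hS : S.card = 4) : (pmSet S).card = 3 := by
  obtain ⟨a, T, haT, rfl, hT⟩ := card_eq_succ.1 hS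
  obtain ⟨b, c, e, hbc, hbe, hce, rfl⟩ := card_eq_three.1 hT
  simp only [mem_insert, mem_singleton, not_or] at haT
  obtain ⟨hab, hac, hae⟩ := haT
  have d1 : Dist a b c e := ⟨hab, hac, hae, hbc, hbe, hce⟩
  have d2 : Dist a c b e := ⟨hac, hab, hae, hbc.symm, hce, hbe⟩
  have d3 : Dist a e b c := ⟨hae, hab, hac, hbe.symm, hce.symm, hbc⟩
  have ne : ∀ {p q r t r' t' : Fin n} (h : Dist a p r t) (h' : Dist a q r' t'), p ≠ q →
      ({ed a p h.1, ed r t h.2.2.2.2.2} : Finset (Edge n)) ≠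
        {ed a q h'.1, ed r' t' h'.2.2.2.2.2} := by
    intro p q r t r' t' h h' hpq heq
    have : ed a p h.1 ∈ ({ed a q h'.1, ed r' t' h'.2.2.2.2.2} : Finset (Edge n)) :=
      heq ▸ mem_insert_self _ _
    simp only [mem_insert, mem_singleton, ed_eq_iff] at this
    have := h'.1; have := h'.2.1; have := h'.2.2.1
    tauto
  refine card_eq_three.2 ⟨_, _, _, ne d1 d2 hbc, ne d1 d3 hbe, ne d2 d3 hce, ?_⟩
  ext F
  simp only [mem_insert, mem_singleton]
  constructor
  · intro hF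
    obtain ⟨p, r, t, h, hp, hr, ht, rfl⟩ := pm_struct hF (mem_insert_self a _)
    obtain ⟨h1, h2, h3, h4, h5, h6⟩ := id h
    simp only [mem_insert, mem_singleton] at hp hr ht
    rcases hp with rfl | rfl | rfl | rfl <;> rcases hr with rfl | rfl | rfl | rfl <;>
      rcases ht with rfl | rfl | rfl | rfl <;>
      first
        | contradiction
        | exact Or.inl rfl
        | exact Or.inr (Or.inl rfl)
        | exact Or.inr (Or.inr rfl)
        | (left; rw [ed_comm h6]; done)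
        | (right; left; rw [ed_comm h6]; done)
        | (right; right; rw [ed_comm h6])
  · rintro (rfl | rfl | rfl)
    · exact pm_mem d1 rfl
    · exact pm_mem d2 (by ext; simp; tauto)
    · exact pm_mem d3 (by ext; simp; tauto)

lemma deg_switch {S : Finset (Fin n)} {F F' : Finset (Edge n)} (hF : F ∈ pmSet S)
    (hF' : F' ∈ pmSet S) (E : Finset (Edge n)) (v : Fin n) :
    deg (switchResult E F F') v = deg E v := by
  unfold switchResult
  split_ifs with h
  · have c : deg F v = deg F' v := by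
      unfold deg
      by_cases hv : v ∈ S
      · rw [(mem_pmSet.1 hF).2.2 v hv, (mem_pmSet.1 hF').2.2 v hv]
      · rw [filter_eq_empty_iff.2 fun e he t => hv ((mem_pmSet.1 hF).2.1 e he v t),
          filter_eq_empty_iff.2 fun e he t => hv ((mem_pmSet.1 hF').2.1 e he v t)]
    have u : ∀ A B : Finset (Edge n), Disjoint A B → deg (A ∪ B) v = deg A v + deg B v := by
      intro A B hAB
      unfold deg
      rw [filter_union, card_union_of_disjoint (disjoint_filter_filter hAB)]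
    rw [u _ _ (disjoint_of_subset_left sdiff_subset h.2.symm), ← c, ← u _ _ sdiff_disjoint,
      sdiff_union_of_subset h.1]
  · rfl

lemma sum_proposal (E : Finset (Edge n)) (φ : Finset (Edge n) → ℝ) :
    ∑ E', (proposalCount E E' : ℝ) * φ E' = ∑ S ∈ (univ : Finset (Fin n)).powersetCard 4,
      ∑ F ∈ pmSet S, ∑ F' ∈ (pmSet S).erase F, φ (switchResult E F F') := by
  simp only [proposalCount, Nat.cast_sum, Finset.sum_mul]
  rw [Finset.sum_comm]
  refine Finset.sum_congr rfl fun S _ => ?_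
  rw [Finset.sum_comm]
  refine Finset.sum_congr rfl fun F _ => ?_
  rw [Finset.sum_comm]
  refine Finset.sum_congr rfl fun F' _ => ?_
  simp

lemma proposal_eq_zero {E E' : Finset (Edge n)} (hE : E ∈ realizations d)
    (hE' : E' ∉ realizations d) : proposalCount E E' = 0 := by
  unfold proposalCount
  refine Finset.sum_eq_zero fun S _ => Finset.sum_eq_zero fun F hF =>
    Finset.sum_eq_zero fun F' hF' => if_neg fun t => hE' ?_
  rw [← t]
  exact mem_realizations.2 fun v => by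
    rw [deg_switch hF (mem_of_mem_erase hF'), mem_realizations.1 hE]

lemma sum_proposal_real {E : Finset (Edge n)} (hE : E ∈ realizations d) :
    ∑ E' ∈ realizations d, (proposalCount E E' : ℝ) = 6 * (n.choose 4 : ℝ) := by
  rw [Finset.sum_subset (subset_univ _) (fun E' _ h => by rw [proposal_eq_zero hE h]; simp)]
  have := sum_proposal E (fun _ => 1)
  simp only [mul_one] at this
  rw [this, Finset.sum_congr rfl (g := fun _ => (6 : ℝ))]
  · simp [mul_comm]
  · intro S hS
    have h3 := card_pmSet (mem_powersetCard.1 hS).2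
    rw [Finset.sum_congr rfl (g := fun _ => (2 : ℝ))]
    · rw [Finset.sum_const, h3]; norm_num
    · intro F hF
      rw [Finset.sum_const, card_erase_of_mem hF, h3]; norm_num

lemma proposal_symm (E E' : Finset (Edge n)) : proposalCount E E' = proposalCount E' E := by
  by_cases hE : E = E'
  · rw [hE]
  have key : ∀ {E E' F F' : Finset (Edge n)}, E ≠ E' → switchResult E F F' = E' →
      switchResult E' F' F = E := by
    intro E E' F F' hne h
    unfold switchResult at h ⊢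
    split_ifs at h with h1
    · subst h
      have hd : Disjoint F F' := disjoint_of_subset_left h1.1 h1.2.symm
      rw [if_pos ⟨subset_union_right, disjoint_union_right.2 ⟨disjoint_sdiff, hd⟩⟩,
        union_sdiff_right, Finset.sdiff_eq_self_of_disjoint
          (disjoint_of_subset_left sdiff_subset h1.2.symm), sdiff_union_of_subset h1.1]
    · exact absurd h hne
  unfold proposalCount
  refine Finset.sum_congr rfl fun S _ => ?_
  rw [Finset.sum_comm' (t' := pmSet S) (s' := fun F' => (pmSet S).erase F')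
    (by intro F F'; simp only [mem_erase]; tauto)]
  refine Finset.sum_congr rfl fun F' _ => Finset.sum_congr rfl fun F _ => ?_
  exact if_congr ⟨key hE, key (Ne.symm hE)⟩ rfl rfl

lemma one_le_proposal {u v w x : Fin n} {N : GX d} (h : Avail u v w x N) :
    1 ≤ proposalCount (toE N) (toE (tau u v w x N)) := by
  obtain ⟨hd, m1, m2, m3, m4⟩ := id h
  obtain ⟨h1, h2, h3, h4, h5, h6⟩ := id hd
  have d1 : Dist u w v x := ⟨h2, h1, h3, h4.symm, h6, h5⟩
  have d2 : Dist u x v w := ⟨h3, h1, h2, h5.symm, h6.symm, h4⟩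
  have p1 := pm_mem d1 (S := {u, w, v, x}) rfl
  have p2 := pm_mem d2 (S := {u, w, v, x}) (by ext; simp; tauto)
  have hS : ({u, w, v, x} : Finset (Fin n)) ∈ (univ : Finset (Fin n)).powersetCard 4 := by
    refine mem_powersetCard.2 ⟨subset_univ _, ?_⟩
    rw [card_insert_of_notMem (by simp [h1, h2, h3]), card_insert_of_notMem (by simp [h4.symm, h6]),
      card_pair h5]
  have s1 : ({ed u w h2, ed v x h5} : Finset (Edge n)) ⊆ toE N := by
    intro e he
    simp only [mem_insert, mem_singleton] at he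
    rcases he with rfl | rfl <;> rwa [ed_mem_toE]
  have s2 : Disjoint ({ed u x h3, ed v w h4} : Finset (Edge n)) (toE N) := by
    rw [Finset.disjoint_left]
    intro e he
    simp only [mem_insert, mem_singleton] at he
    rcases he with rfl | rfl <;> rwa [ed_mem_toE]
  have ne : ({ed u x h3, ed v w h4} : Finset (Edge n)) ≠ {ed u w h2, ed v x h5} := fun t =>
    Finset.disjoint_left.1 s2 (mem_insert_self _ _) (s1 (t ▸ mem_insert_self _ _))
  have res : switchResult (toE N) {ed u w h2, ed v x h5} {ed u x h3, ed v w h4} =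
      toE (tau u v w x N) := by
    unfold switchResult
    rw [if_pos ⟨s1, s2⟩]
    refine edge_ext fun a b hab => ?_
    rw [ed_mem_toE, mem_tau hd h.dl.1 h.dl.2, mem_union, mem_sdiff, ed_mem_toE]
    simp only [mem_insert, mem_singleton, ed_eq_iff]
    have m1' := N.symm.1 m1
    have m3' := N.symm.1 m3
    have m2' : u ∉ N.1 x := fun t => m2 (N.symm.1 t)
    have m4' : v ∉ N.1 w := fun t => m4 (N.symm.1 t)
    by_cases hk : kk u v w x a b
    · simp only [hk, true_iff]
      unfold kk at hk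
      rcases hk with ⟨rfl | rfl, rfl | rfl⟩ | ⟨rfl | rfl, rfl | rfl⟩ <;>
        simp [*, h1.symm, h2.symm, h3.symm, h4.symm, h5.symm, h6.symm]
    · simp only [hk, false_iff, not_not]
      constructor
      · rintro (t | t)
        · exact t.1
        · refine absurd ?_ hk
          rcases t with (⟨rfl, rfl⟩ | ⟨rfl, rfl⟩) | (⟨rfl, rfl⟩ | ⟨rfl, rfl⟩) <;> simp [kk]
      · intro t
        refine Or.inl ⟨t, fun s => hk ?_⟩
        rcases s with (⟨rfl, rfl⟩ | ⟨rfl, rfl⟩) | (⟨rfl, rfl⟩ | ⟨rfl, rfl⟩) <;> simp [kk]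
  unfold proposalCount
  refine le_trans ?_ (Finset.single_le_sum (fun _ _ => Nat.zero_le _) hS)
  refine le_trans ?_ (Finset.single_le_sum (fun _ _ => Nat.zero_le _) p1)
  refine le_trans ?_ (Finset.single_le_sum (fun _ _ => Nat.zero_le _) (mem_erase.2 ⟨ne, p2⟩))
  rw [if_pos res]

lemma sum_le_of_inj {β γ : Type*} (A : Finset β) (B : Finset γ) (g : β → γ)
    (inj : ∀ p ∈ A, ∀ q ∈ A, g p = g q → p = q) (hm : ∀ p ∈ A, g p ∈ B) (φ : β → ℝ) (ψ : γ → ℝ)
    (h0 : ∀ y, 0 ≤ ψ y) (h : ∀ p ∈ A, φ p ≤ ψ (g p)) : ∑ p ∈ A, φ p ≤ ∑ y ∈ B, ψ y := by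
  classical
  refine (Finset.sum_le_sum h).trans ?_
  rw [← Finset.sum_image (f := ψ) inj]
  refine Finset.sum_le_sum_of_subset_of_nonneg ?_ fun _ _ _ => h0 _
  intro y hy
  obtain ⟨p, hp, rfl⟩ := mem_image.1 hy
  exact hm p hp

lemma avail_inj {u v w x w' x' : Fin n} {N : GX d} (hp : Avail u v w x N) (hq : Avail u v w' x' N)
    (e : tau u v w x N = tau u v w' x' N) : w = w' ∧ x = x' := by
  have row : ∀ {w x : Fin n}, Avail u v w x N → ∀ b,
      b ∈ (tau u v w x N).1 u ↔ ((b = w ∨ b = x) ↔ b ∉ N.1 u) := by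
    intro w x h b
    rw [mem_tau h.1 h.dl.1 h.dl.2]
    simp [kk, h.1.2.1, h.1.2.2.1]
  have t1 := row hp w
  have t2 := row hp x
  rw [e, row hq] at t1 t2
  have a1 := hp.2.1
  have a2 := hp.2.2.1
  have a3 := hq.2.1
  have a4 := hq.2.2.1
  constructor
  · have : w = w' ∨ w = x' := by
      simp only [a1, true_or, not_true_eq_false, iff_false, not_true_eq_false] at t1
      exact not_not.1 t1
    exact this.resolve_right fun t => a4 (t ▸ a1)
  · have : x = w' ∨ x = x' := by
      simpa only [a2, or_true, not_false_eq_true, iff_true] using t2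
    exact this.resolve_left fun t => a2 (t ▸ a3)

open Classical in
lemma avail_le {u v : Fin n} (N : GX d) (f : Finset (Edge n) → ℝ) :
    (∑ w, ∑ x, if Avail u v w x N then (f (toE N) - f (toE (tau u v w x N))) ^ 2 else 0) ≤
      ∑ E' ∈ realizations d, (proposalCount (toE N) E' : ℝ) * (f (toE N) - f E') ^ 2 := by
  rw [← Finset.sum_product', ← Finset.sum_filter]
  refine sum_le_of_inj _ _ (fun p => toE (tau u v p.1 p.2 N)) ?_ (fun _ _ => toE_mem _) _ _
    (fun _ => mul_nonneg (Nat.cast_nonneg _) (sq_nonneg _)) ?_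
  · intro p hp q hq e
    have := avail_inj (mem_filter.1 hp).2 (mem_filter.1 hq).2 (toE_inj e)
    exact Prod.ext this.1 this.2
  · intro p hp
    have : (1 : ℝ) ≤ proposalCount (toE N) (toE (tau u v p.1 p.2 N)) := by
      exact_mod_cast one_le_proposal (mem_filter.1 hp).2
    exact le_mul_of_one_le_left (sq_nonneg _) this

theorem poincare (hn : 4 ≤ n) (d : Fin n → ℕ) (f : Finset (Edge n) → ℝ) :
    ((realizations d).card : ℝ) * (∑ G ∈ realizations d, f G ^ 2) -
        (∑ G ∈ realizations d, f G) ^ 2 ≤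
      24 * (n : ℝ) ^ 2 * (n.choose 4 : ℝ) * (realizations d).card *
        ∑ G ∈ realizations d, f G * (f G - ∑ G' ∈ realizations d, kernel n G G' * f G') := by
  classical
  have hC : (0 : ℝ) < n.choose 4 := by exact_mod_cast Nat.choose_pos hn
  set Ω := realizations d with hΩ
  have hrow : ∀ G ∈ Ω, ∑ G' ∈ Ω, kernel n G G' = 1 := by
    intro G hG
    simp only [kernel, Finset.sum_add_distrib, Finset.sum_ite_eq, hG, if_true, ← Finset.sum_div]
    rw [sum_proposal_real hG]
    field_simp; norm_num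
  rw [dirichlet Ω (kernel n) (fun x y => by
    simp only [kernel, proposal_symm x y, eq_comm]) hrow f]
  set W := ∑ G ∈ Ω, ∑ G' ∈ Ω, (proposalCount G G' : ℝ) * (f G - f G') ^ 2 with hW
  have e1 : ∑ x ∈ Ω, ∑ y ∈ Ω, kernel n x y * (f x - f y) ^ 2 = W / (12 * (n.choose 4 : ℝ)) := by
    rw [hW, Finset.sum_div]
    refine Finset.sum_congr rfl fun x _ => ?_
    rw [Finset.sum_div]
    refine Finset.sum_congr rfl fun y _ => ?_
    unfold kernel
    split_ifs with h
    · simp [h]
    · ring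
  have hW0 : 0 ≤ W := Finset.sum_nonneg fun _ _ => Finset.sum_nonneg fun _ _ => by positivity
  set m := mean Ω f with hm
  have hs := sum_eq_card_mul_mean Ω f
  have g := gap_switch (d := d) (fun N => f (toE N) - m) (by
    rw [sum_toE (fun E => f E - m), Finset.sum_sub_distrib, hs]; simp [hm, hΩ])
  have g1 : (fun N : GX d => f (toE N) - m) ⬝ᵥ (fun N => f (toE N) - m) =
      ∑ G ∈ Ω, (f G - m) ^ 2 := by
    rw [← sum_toE]; simp only [dotProduct, sq]
  have g2 : (∑ u, ∑ v, ∑ N : GX d, ∑ w, ∑ x, if Avail u v w x N then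
      (f (toE N) - m - (f (toE (tau u v w x N)) - m)) ^ 2 else 0) ≤ (n : ℝ) ^ 2 * W := by
    simp only [sub_sub_sub_cancel_right]
    refine le_trans (Finset.sum_le_sum fun u _ => Finset.sum_le_sum fun v _ =>
      Finset.sum_le_sum fun N _ => avail_le N f) (le_of_eq ?_)
    rw [sum_toE (fun E => ∑ E' ∈ realizations d, (proposalCount E E' : ℝ) * (f E - f E') ^ 2)]
    simp only [Finset.sum_const, card_univ, Fintype.card_fin, nsmul_eq_mul]
    ring
  rw [g1] at g
  have e2 := sum_sq_sub_const Ω f 0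
  simp only [sub_zero] at e2
  rw [e1, e2, hs]
  have hN : (0 : ℝ) ≤ Ω.card := by positivity
  have e3 : 24 * (n : ℝ) ^ 2 * (n.choose 4 : ℝ) * Ω.card * (W / (12 * (n.choose 4 : ℝ)) / 2) =
      Ω.card * ((n : ℝ) ^ 2 * W) := by field_simp; ring
  rw [e3]
  have v0 : 0 ≤ ∑ G ∈ Ω, (f G - m) ^ 2 := Finset.sum_nonneg fun _ _ => sq_nonneg _
  have : ∑ G ∈ Ω, (f G - m) ^ 2 ≤ (n : ℝ) ^ 2 * W := by linarith
  nlinarith [mul_le_mul_of_nonneg_left this hN]

theorem tv_le (hn : 4 ≤ n) (d : Fin n → ℕ) {G : Finset (Edge n)} (hG : G ∈ realizations d) :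
    tvDist (fun G' => (kernel n ^ (2 * n ^ 8)) G G') (unifOn (realizations d)) ≤ 1 / 4 := by
  have hC : (1 : ℝ) ≤ n.choose 4 := by exact_mod_cast Nat.choose_pos hn
  have hn' : (4 : ℝ) ≤ n := by exact_mod_cast hn
  set K : ℝ := 24 * (n : ℝ) ^ 2 * (n.choose 4 : ℝ) with hK
  have hK1 : 1 ≤ K := by rw [hK]; nlinarith
  have hK2 : K ≤ (n : ℝ) ^ 6 := by
    have : (n.choose 4 : ℝ) ≤ (n : ℝ) ^ 4 / (Nat.factorial 4 : ℝ) := Nat.choose_le_pow_div 4 n
    norm_num [Nat.factorial] at this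
    rw [hK]
    nlinarith [sq_nonneg (n : ℝ)]
  have h := mixing (realizations d) (kernel n)
    (fun x y => (proposalCount x y : ℝ) / (12 * (n.choose 4 : ℝ))) (fun _ _ => rfl)
    (fun _ _ => by positivity) (fun x y => by rw [proposal_symm])
    (fun x hx => by
      rw [← Finset.sum_div, sum_proposal_real hx]; field_simp; norm_num)
    (fun x hx y hy => by rw [proposal_eq_zero hx hy]; simp) K hK1 (poincare hn d) hG (2 * n ^ 8)
  have hN : ((realizations d).card : ℝ) ≤ Real.exp ((n : ℝ) ^ 2) := by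
    have c1 : (realizations d).card ≤ 2 ^ (n ^ 2) := by
      refine (card_le_univ _).trans ?_
      rw [Fintype.card_finset]
      refine Nat.pow_le_pow_right (by norm_num) ?_
      refine (Fintype.card_subtype_le _).trans ?_
      refine (Fintype.card_le_of_surjective (fun p : Fin n × Fin n => s(p.1, p.2)) ?_).trans ?_
      · intro e
        induction e using Sym2.ind with
        | _ a b => exact ⟨(a, b), rfl⟩
      · simp [sq]
    have c2 : (2 : ℝ) ^ (n ^ 2) ≤ Real.exp 1 ^ (n ^ 2) :=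
      pow_le_pow_left₀ (by norm_num) (by linarith [Real.add_one_le_exp 1]) _
    rw [← Real.exp_nat_mul] at c2
    calc ((realizations d).card : ℝ) ≤ (2 : ℝ) ^ (n ^ 2) := by exact_mod_cast c1
      _ ≤ _ := by simpa using c2
  have hK0 : 0 < K := by linarith
  have hp : (1 - 1 / K) ^ (2 * n ^ 8) ≤ Real.exp (-(2 * (n : ℝ) ^ 2)) := by
    have c1 : (1 - 1 / K) ^ (2 * n ^ 8) ≤ Real.exp (-(1 / K)) ^ (2 * n ^ 8) :=
      pow_le_pow_left₀ (by rw [sub_nonneg, div_le_one hK0]; exact hK1)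
        (by linarith [Real.add_one_le_exp (-(1 / K))]) _
    refine c1.trans ?_
    rw [← Real.exp_nat_mul, Real.exp_le_exp]
    push_cast
    have : 2 * (n : ℝ) ^ 2 ≤ 2 * (n : ℝ) ^ 8 * (1 / K) := by
      rw [mul_one_div, le_div_iff₀ hK0]
      nlinarith [sq_nonneg (n : ℝ)]
    linarith
  have hfin : ((realizations d).card : ℝ) * (1 - 1 / K) ^ (2 * n ^ 8) ≤ (1 / 2) ^ 2 := by
    calc ((realizations d).card : ℝ) * (1 - 1 / K) ^ (2 * n ^ 8)
        ≤ Real.exp ((n : ℝ) ^ 2) * Real.exp (-(2 * (n : ℝ) ^ 2)) :=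
          mul_le_mul hN hp (pow_nonneg (by rw [sub_nonneg, div_le_one hK0]; exact hK1) _)
            (Real.exp_pos _).le
      _ = (Real.exp ((n : ℝ) ^ 2))⁻¹ := by rw [← Real.exp_add, ← Real.exp_neg]; congr 1; ring
      _ ≤ (1 / 2) ^ 2 := by
          rw [inv_le_comm₀ (Real.exp_pos _) (by norm_num)]
          have := Real.add_one_le_exp ((n : ℝ) ^ 2)
          nlinarith
  have := abs_le_of_sq_le_sq' (h.trans hfin) (by norm_num)
  unfold tvDist unifOn
  linarith [this.2]

end Crest.Agent.R299
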