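import Crest.Agent.R299.Graph

set_option autoImplicit false

namespace Crest.Agent.R299

open Finset

variable {V : Type*} [DecidableEq V] [Fintype V] {d : V → ℕ}

/-- Four distinct vertices. -/
def Dist (u v w x : V) : Prop := u ≠ v ∧ u ≠ w ∧ u ≠ x ∧ v ≠ w ∧ v ≠ x ∧ w ≠ x

omit [DecidableEq V] [Fintype V] in
lemma Dist.symm {u v w x : V} (h : Dist u v w x) : Dist w x u v := by
  obtain ⟨h1, h2, h3, h4, h5, h6⟩ := h
  exact ⟨h6, h2.symm, h4.symm, h3.symm, h5.symm, h1⟩

/-- Each of `u`, `v` has exactly one neighbour among `w`, `x`. -/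
def dl (u v w x : V) (N : GX d) : Prop := (w ∈ N.1 u ↔ x ∉ N.1 u) ∧ (w ∈ N.1 v ↔ x ∉ N.1 v)

omit [Fintype V] in
lemma dl_iff {u v w x : V} {N : GX d} :
    dl u v w x N ↔ ind (N.1 u) w + ind (N.1 u) x = 1 ∧ ind (N.1 v) w + ind (N.1 v) x = 1 := by
  unfold dl ind
  by_cases h1 : w ∈ N.1 u <;> by_cases h2 : x ∈ N.1 u <;> by_cases h3 : w ∈ N.1 v <;>
    by_cases h4 : x ∈ N.1 v <;> simp [h1, h2, h3, h4]

omit [Fintype V] in
lemma pair_inv {w x : V} (hwx : w ≠ x) {N N' : GX d} (h : out {w, x} N = out {w, x} N') {u : V}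
    (huw : u ≠ w) (hux : u ≠ x) :
    ind (N.1 u) w + ind (N.1 u) x = ind (N'.1 u) w + ind (N'.1 u) x := by
  have := col_inv h (c := u) (by simp [huw, hux])
  rw [sum_pair hwx, sum_pair hwx] at this
  rw [N.ind_symm u w, N.ind_symm u x, N'.ind_symm u w, N'.ind_symm u x, this]

omit [Fintype V] in
lemma dl_meas {u v w x : V} (h : Dist u v w x) {N N' : GX d}
    (ho : out {w, x} N = out {w, x} N') : dl u v w x N ↔ dl u v w x N' := by
  obtain ⟨h1, h2, h3, h4, h5, h6⟩ := h
  rw [dl_iff, dl_iff, pair_inv h6 ho h2 h3, pair_inv h6 ho h4 h5]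

/-- The edges of the complete bipartite block. -/
def kk (u v w x a b : V) : Prop :=
  ((a = u ∨ a = v) ∧ (b = w ∨ b = x)) ∨ ((a = w ∨ a = x) ∧ (b = u ∨ b = v))

/-- The rows after the switch. -/
def togF (u v w x : V) (N : GX d) : V → Finset V := fun a =>
  if a = u ∨ a = v then sw w x (N.1 a) else if a = w ∨ a = x then sw u v (N.1 a) else N.1 a

omit [Fintype V] in
lemma mem_sw_of_xor {w x b : V} {R : Finset V} (h : w ∈ R ↔ x ∉ R) :
    b ∈ sw w x R ↔ ((b = w ∨ b = x) ↔ b ∉ R) := by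
  rw [mem_sw]
  by_cases h1 : b = w
  · subst h1; simp only [Equiv.swap_apply_left]; tauto
  · by_cases h2 : b = x
    · subst h2; simp only [Equiv.swap_apply_right]; tauto
    · rw [Equiv.swap_apply_of_ne_of_ne h1 h2]; tauto

omit [Fintype V] in
lemma mem_togF {u v w x : V} (h : Dist u v w x) {N : GX d} (h1 : dl u v w x N)
    (h2 : dl w x u v N) (a b : V) : b ∈ togF u v w x N a ↔ (kk u v w x a b ↔ b ∉ N.1 a) := by
  obtain ⟨d1, d2, d3, d4, d5, d6⟩ := h
  unfold togF kk
  by_cases c1 : a = u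
  · subst c1; rw [if_pos (Or.inl rfl), mem_sw_of_xor h1.1]; simp [d2, d3]
  by_cases c2 : a = v
  · subst c2; rw [if_pos (Or.inr rfl), mem_sw_of_xor h1.2]; simp [d4, d5]
  rw [if_neg (by tauto)]
  by_cases c3 : a = w
  · subst c3; rw [if_pos (Or.inl rfl), mem_sw_of_xor h2.1]; simp [c1, c2]
  by_cases c4 : a = x
  · subst c4; rw [if_pos (Or.inr rfl), mem_sw_of_xor h2.2]; simp [c1, c2]
  rw [if_neg (by tauto)]
  simp [c1, c2, c3, c4]

omit [DecidableEq V] [Fintype V] in
lemma kk_symm {u v w x a b : V} : kk u v w x a b ↔ kk u v w x b a := by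
  unfold kk; tauto

omit [DecidableEq V] [Fintype V] in
lemma kk_swap {u v w x a b : V} : kk u v w x a b ↔ kk w x u v a b := by
  unfold kk; tauto

omit [Fintype V] in
lemma isG_togF {u v w x : V} (h : Dist u v w x) {N : GX d} (h1 : dl u v w x N)
    (h2 : dl w x u v N) : IsG d (togF u v w x N) := by
  refine ⟨fun a b hab => ?_, fun a ha => ?_, fun a => ?_⟩
  · rw [mem_togF h h1 h2] at hab ⊢
    rw [kk_symm, N.symm]; exact hab
  · rw [mem_togF h h1 h2] at ha
    have := ha.2 (N.irrefl a)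
    obtain ⟨d1, d2, d3, d4, d5, d6⟩ := h
    unfold kk at this
    rcases this with ⟨rfl | rfl, t | t⟩ | ⟨rfl | rfl, t | t⟩ <;> simp_all
  · unfold togF
    split_ifs <;> simp only [card_sw, N.card]

/-- The switch on the block `{u, v} × {w, x}` (identity when it is not available). -/
noncomputable def tau (u v w x : V) (N : GX d) : GX d := by
  classical
  exact if h : Dist u v w x ∧ dl u v w x N ∧ dl w x u v N then
    ⟨togF u v w x N, isG_togF h.1 h.2.1 h.2.2⟩ else N

omit [Fintype V] in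
lemma mem_tau {u v w x : V} (h : Dist u v w x) {N : GX d} (h1 : dl u v w x N)
    (h2 : dl w x u v N) (a b : V) : b ∈ (tau u v w x N).1 a ↔ (kk u v w x a b ↔ b ∉ N.1 a) := by
  unfold tau
  rw [dif_pos ⟨h, h1, h2⟩]
  exact mem_togF h h1 h2 a b

omit [Fintype V] in
lemma tau_of_not {u v w x : V} {N : GX d} (h : ¬ (Dist u v w x ∧ dl u v w x N ∧ dl w x u v N)) :
    tau u v w x N = N := by
  unfold tau
  rw [dif_neg h]

omit [Fintype V] in
lemma tau_swap (u v w x : V) (N : GX d) : tau u v w x N = tau w x u v N := by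
  by_cases h : Dist u v w x ∧ dl u v w x N ∧ dl w x u v N
  · refine GX.ext' fun a b => ?_
    rw [mem_tau h.1 h.2.1 h.2.2, mem_tau h.1.symm h.2.2 h.2.1, kk_swap]
  · rw [tau_of_not h, tau_of_not (fun t => h ⟨t.1.symm, t.2.2, t.2.1⟩)]

omit [Fintype V] in
lemma out_tau (u v w x : V) (N : GX d) : out {u, v} (tau u v w x N) = out {u, v} N := by
  by_cases h : Dist u v w x ∧ dl u v w x N ∧ dl w x u v N
  · refine out_eq_iff.2 fun a ha b hb => ?_
    rw [mem_tau h.1 h.2.1 h.2.2]
    simp only [mem_insert, mem_singleton] at ha hb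
    unfold kk; tauto
  · rw [tau_of_not h]

omit [Fintype V] in
lemma out_tau' (u v w x : V) (N : GX d) : out {w, x} (tau u v w x N) = out {w, x} N := by
  rw [tau_swap, out_tau]

omit [Fintype V] in
lemma tau_tau (u v w x : V) (N : GX d) : tau u v w x (tau u v w x N) = N := by
  by_cases h : Dist u v w x ∧ dl u v w x N ∧ dl w x u v N
  · refine GX.ext' fun a b => ?_
    rw [mem_tau h.1 ((dl_meas h.1 (out_tau' u v w x N)).2 h.2.1)
      ((dl_meas h.1.symm (out_tau u v w x N)).2 h.2.2), mem_tau h.1 h.2.1 h.2.2]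
    by_cases t1 : kk u v w x a b <;> by_cases t2 : b ∈ N.1 a <;> simp [t1, t2]
  · rw [tau_of_not h, tau_of_not h]

omit [Fintype V] in
lemma sum_tau (u v w x : V) (s : Finset (GX d)) (hs : ∀ N ∈ s, tau u v w x N ∈ s)
    (φ : GX d → ℝ) : ∑ N ∈ s, φ (tau u v w x N) = ∑ N ∈ s, φ N :=
  Finset.sum_bij' (fun N _ => tau u v w x N) (fun N _ => tau u v w x N) hs hs
    (fun N _ => tau_tau u v w x N) (fun N _ => tau_tau u v w x N) (fun _ _ => rfl)

/-- The number of `2 × 2` zero-one blocks with given margins. -/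
def cnt (ru rv gw gx : ℕ) : ℕ :=
  (univ.filter fun β : Bool × Bool × Bool × Bool =>
    β.1.toNat + β.2.1.toNat = ru ∧ β.2.2.1.toNat + β.2.2.2.toNat = rv ∧
      β.1.toNat + β.2.2.1.toNat = gw ∧ β.2.1.toNat + β.2.2.2.toNat = gx).card

lemma cnt_eq {ru rv ru' rv' gw gx : ℕ} (h1 : ru ≤ 2) (h2 : rv ≤ 2) (h3 : ru' ≤ 2) (h4 : rv' ≤ 2)
    (h5 : gw ≤ 2) (h6 : gx ≤ 2) (e : ru + rv = ru' + rv')
    (e' : (ru = 1 ∧ rv = 1) ↔ (ru' = 1 ∧ rv' = 1)) : cnt ru rv gw gx = cnt ru' rv' gw gx := by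
  interval_cases ru <;> interval_cases rv <;> interval_cases ru' <;> interval_cases rv' <;>
    first
      | rfl
      | omega
      | (simp at e'; done)
      | (interval_cases gw <;> interval_cases gx <;> decide)

omit [Fintype V] in
lemma toNat_decide (R : Finset V) (c : V) : (decide (c ∈ R)).toNat = ind R c := by
  unfold ind; by_cases h : c ∈ R <;> simp [h]

/-- The refined invariant of the pair `u, v` relative to `w, x`. -/
def ref (u v w x : V) (N : GX d) : (V → Finset V) × Prop := (out {u, v} N, dl u v w x N)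

omit [Fintype V] in
lemma ref_eq_iff {u v w x : V} {N N' : GX d} :
    ref u v w x N = ref u v w x N' ↔
      out {u, v} N = out {u, v} N' ∧ (dl u v w x N ↔ dl u v w x N') := by
  simp [ref]

/-- The joint invariant. -/
def joint (u v w x : V) (N : GX d) : (V → Finset V) × (V → ℕ) × ℕ × Prop :=
  (out {u, v, w, x} N,
    fun z => if z ∈ ({u, v, w, x} : Finset V) then 0 else ind (N.1 u) z + ind (N.1 v) z,
    ind (N.1 u) w + ind (N.1 u) x + (ind (N.1 v) w + ind (N.1 v) x), dl u v w x N)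

omit [Fintype V] in
lemma joint_eq_iff {u v w x : V} {N N' : GX d} :
    joint u v w x N = joint u v w x N' ↔
      out {u, v, w, x} N = out {u, v, w, x} N' ∧
      (∀ z, z ∉ ({u, v, w, x} : Finset V) →
        ind (N.1 u) z + ind (N.1 v) z = ind (N'.1 u) z + ind (N'.1 v) z) ∧
      ind (N.1 u) w + ind (N.1 u) x + (ind (N.1 v) w + ind (N.1 v) x) =
        ind (N'.1 u) w + ind (N'.1 u) x + (ind (N'.1 v) w + ind (N'.1 v) x) ∧
      (dl u v w x N ↔ dl u v w x N') := by
  simp only [joint, Prod.mk.injEq, eq_iff_iff]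
  refine and_congr Iff.rfl (and_congr ?_ Iff.rfl)
  constructor
  · intro h z hz
    have := congrFun h z
    simpa only [if_neg hz] using this
  · intro h
    funext z
    by_cases hz : z ∈ ({u, v, w, x} : Finset V)
    · simp only [if_pos hz]
    · simp only [if_neg hz, h z hz]

omit [Fintype V] in
lemma joint_of_out {u v w x : V} (h : Dist u v w x) {N N' : GX d}
    (ho : out {w, x} N = out {w, x} N') : joint u v w x N = joint u v w x N' := by
  have hd := dl_meas h ho
  obtain ⟨h1, h2, h3, h4, h5, h6⟩ := h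
  refine joint_eq_iff.2 ⟨out_mono (by intro; simp; tauto) ho, fun z hz => ?_, ?_, hd⟩
  · have hz' : z ∉ ({w, x} : Finset V) := by simp at hz ⊢; tauto
    simp only [ind, out_eq_iff.1 ho u (by simp [h2, h3]) z hz',
      out_eq_iff.1 ho v (by simp [h4, h5]) z hz']
  · rw [pair_inv h6 ho h2 h3, pair_inv h6 ho h4 h5]

omit [Fintype V] in
lemma joint_of_ref {u v w x : V} (h : Dist u v w x) {N N' : GX d}
    (ho : ref u v w x N = ref u v w x N') : joint u v w x N = joint u v w x N' := by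
  obtain ⟨ho, hd⟩ := ref_eq_iff.1 ho
  obtain ⟨h1, h2, h3, h4, h5, h6⟩ := h
  refine joint_eq_iff.2 ⟨out_mono (by intro; simp; tauto) ho, fun z hz => ?_, ?_, hd⟩
  · have := pair_inv h1 ho (u := z) (by simp at hz; tauto) (by simp at hz; tauto)
    rw [N.ind_symm u z, N.ind_symm v z, N'.ind_symm u z, N'.ind_symm v z, this]
  · have e1 := pair_inv h1 ho h2.symm h4.symm
    have e2 := pair_inv h1 ho h3.symm h5.symm
    rw [N.ind_symm w u, N.ind_symm w v, N'.ind_symm w u, N'.ind_symm w v] at e1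
    rw [N.ind_symm x u, N.ind_symm x v, N'.ind_symm x u, N'.ind_symm x v] at e2
    omega

lemma card_block {u v w x : V} (h : Dist u v w x) {N1 N2 : GX d}
    (hj : joint u v w x N1 = joint u v w x N2) :
    (cls (out {w, x}) N1 ∩ cls (ref u v w x) N2).card =
      cnt (ind (N1.1 u) w + ind (N1.1 u) x) (ind (N1.1 v) w + ind (N1.1 v) x)
        (ind (N2.1 u) w + ind (N2.1 v) w) (ind (N2.1 u) x + ind (N2.1 v) x) := by
  obtain ⟨j1, j2, j3, j4⟩ := joint_eq_iff.1 hj
  obtain ⟨h1, h2, h3, h4, h5, h6⟩ := id h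
  unfold cnt
  refine Finset.card_bij (fun N _ => (decide (w ∈ N.1 u), decide (x ∈ N.1 u),
    decide (w ∈ N.1 v), decide (x ∈ N.1 v))) ?_ ?_ ?_
  · intro N hN
    rw [mem_inter, mem_cls, mem_cls, ref_eq_iff] at hN
    obtain ⟨o1, o2, -⟩ := hN
    simp only [mem_filter, mem_univ, true_and, toNat_decide]
    refine ⟨pair_inv h6 o1 h2 h3, pair_inv h6 o1 h4 h5, ?_, ?_⟩
    · have := pair_inv h1 o2 h2.symm h4.symm
      rwa [N.ind_symm w u, N.ind_symm w v, N2.ind_symm w u, N2.ind_symm w v] at this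
    · have := pair_inv h1 o2 h3.symm h5.symm
      rwa [N.ind_symm x u, N.ind_symm x v, N2.ind_symm x u, N2.ind_symm x v] at this
  · intro N hN N' hN' e
    rw [mem_inter, mem_cls, mem_cls, ref_eq_iff] at hN hN'
    have o1 := out_eq_iff.1 (hN.1.trans hN'.1.symm)
    have o2 := out_eq_iff.1 (hN.2.1.trans hN'.2.1.symm)
    simp only [Prod.mk.injEq, decide_eq_decide] at e
    obtain ⟨e1, e2, e3, e4⟩ := e
    have row : ∀ a, a = u ∨ a = v → ∀ b, b ∈ N.1 a ↔ b ∈ N'.1 a := by
      intro a ha b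
      by_cases hb : b ∈ ({w, x} : Finset V)
      · simp only [mem_insert, mem_singleton] at hb
        rcases ha with rfl | rfl <;> rcases hb with rfl | rfl <;> assumption
      · exact o1 a (by rcases ha with rfl | rfl <;> simp [*]) b hb
    refine GX.ext' fun a b => ?_
    by_cases ha : a ∈ ({u, v} : Finset V)
    · exact row a (by simpa using ha) b
    · by_cases hb : b ∈ ({u, v} : Finset V)
      · rw [N.symm, N'.symm]; exact row b (by simpa using hb) a
      · exact o2 a ha b hb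
  · rintro ⟨β1, β2, β3, β4⟩ hβ
    simp only [mem_filter, mem_univ, true_and] at hβ
    obtain ⟨b1, b2, b3, b4⟩ := hβ
    set W : Finset V := {u, v, w, x} with hW
    have inW : ∀ z ∈ W, z = u ∨ z = v ∨ z = w ∨ z = x := fun z hz => by simpa [hW] using hz
    have sumW : ∀ φ : V → ℕ, ∑ z ∈ W, φ z = φ u + φ v + φ w + φ x := fun φ => by
      rw [hW, sum_insert (by simp [h1, h2, h3]), sum_insert (by simp [h4, h5]), sum_pair h6]
      omega
    let mk : Finset V → V → V → Bool → Bool → Finset V := fun R p q s t =>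
      (R \ {p, q}) ∪ ({p, q} : Finset V).filter (fun z => (z = p ∧ s) ∨ (z = q ∧ t))
    have mk1 : ∀ R p q s t, p ≠ q → (p ∈ mk R p q s t ↔ s) := by
      intro R p q s t hpq; simp [mk, hpq]
    have mk2 : ∀ R p q s t, p ≠ q → (q ∈ mk R p q s t ↔ t) := by
      intro R p q s t hpq; simp [mk, hpq.symm]
    have mk3 : ∀ R p q s t z, z ≠ p → z ≠ q → (z ∈ mk R p q s t ↔ z ∈ R) := by
      intro R p q s t z hp hq; simp [mk, hp, hq]
    have mk4 : ∀ R p q (s t : Bool), p ≠ q → s.toNat + t.toNat = ind R p + ind R q →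
        (mk R p q s t).card = R.card := by
      intro R p q s t hpq hst
      have c1 := card_eq_sdiff_add (mk R p q s t) {p, q}
      have c2 := card_eq_sdiff_add R {p, q}
      rw [sum_pair hpq] at c1 c2
      have c3 : mk R p q s t \ {p, q} = R \ {p, q} := by
        ext z; simp only [mem_sdiff, mem_insert, mem_singleton, not_or]
        exact ⟨fun t => ⟨(mk3 _ _ _ _ _ z t.2.1 t.2.2).1 t.1, t.2⟩,
          fun t => ⟨(mk3 _ _ _ _ _ z t.2.1 t.2.2).2 t.1, t.2⟩⟩
      have c4 : ind (mk R p q s t) p = s.toNat := by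
        rw [← toNat_decide]; simp only [mk1 R p q s t hpq, Bool.decide_eq_true]
      have c5 : ind (mk R p q s t) q = t.toNat := by
        rw [← toNat_decide]; simp only [mk2 R p q s t hpq, Bool.decide_eq_true]
      rw [c3, c4, c5] at c1
      omega
    let ρ : V → Finset V := fun t =>
      if t = u then mk (N1.1 u) w x β1 β2 else if t = v then mk (N1.1 v) w x β3 β4
      else if t = w then mk (N2.1 w) u v β1 β3 else mk (N2.1 x) u v β2 β4
    have ρu : ρ u = mk (N1.1 u) w x β1 β2 := by simp [ρ]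
    have ρv : ρ v = mk (N1.1 v) w x β3 β4 := by simp [ρ, h1.symm]
    have ρw : ρ w = mk (N2.1 w) u v β1 β3 := by simp [ρ, h2.symm, h4.symm]
    have ρx : ρ x = mk (N2.1 x) u v β2 β4 := by simp [ρ, h3.symm, h5.symm, h6.symm]
    have A : ∀ a, a = u ∨ a = v → ∀ z, z ≠ w → z ≠ x → (z ∈ ρ a ↔ z ∈ N1.1 a) := by
      rintro a (rfl | rfl) z hw hx
      · rw [ρu, mk3 _ _ _ _ _ z hw hx]
      · rw [ρv, mk3 _ _ _ _ _ z hw hx]
    have B : ∀ a, a = w ∨ a = x → ∀ z, z ≠ u → z ≠ v → (z ∈ ρ a ↔ z ∈ N2.1 a) := by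
      rintro a (rfl | rfl) z hw hx
      · rw [ρw, mk3 _ _ _ _ _ z hw hx]
      · rw [ρx, mk3 _ _ _ _ _ z hw hx]
    have uw : w ∈ ρ u ↔ β1 := by rw [ρu, mk1 _ _ _ _ _ h6]
    have ux : x ∈ ρ u ↔ β2 := by rw [ρu, mk2 _ _ _ _ _ h6]
    have vw : w ∈ ρ v ↔ β3 := by rw [ρv, mk1 _ _ _ _ _ h6]
    have vx : x ∈ ρ v ↔ β4 := by rw [ρv, mk2 _ _ _ _ _ h6]
    have wu : u ∈ ρ w ↔ β1 := by rw [ρw, mk1 _ _ _ _ _ h1]
    have wv : v ∈ ρ w ↔ β3 := by rw [ρw, mk2 _ _ _ _ _ h1]
    have xu : u ∈ ρ x ↔ β2 := by rw [ρx, mk1 _ _ _ _ _ h1]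
    have xv : v ∈ ρ x ↔ β4 := by rw [ρx, mk2 _ _ _ _ _ h1]
    have uv : v ∈ ρ u ↔ u ∈ ρ v := by
      rw [A u (Or.inl rfl) v h4 h5, A v (Or.inr rfl) u h2 h3, N1.symm]
    have wx : x ∈ ρ w ↔ w ∈ ρ x := by
      rw [B w (Or.inl rfl) x h3.symm h5.symm, B x (Or.inr rfl) w h2.symm h4.symm, N2.symm]
    obtain ⟨N, hN, hρ⟩ := patch N1 W ρ
      (by
        intro a ha b hb
        rcases inW a ha with rfl | rfl | rfl | rfl <;> rcases inW b hb with rfl | rfl | rfl | rfl <;>
          simp only [uw, ux, vw, vx, wu, wv, xu, xv, uv, wx, imp_self])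
      (by
        intro a ha
        rcases inW a ha with rfl | rfl | rfl | rfl
        · rw [A a (Or.inl rfl) a h2 h3]; exact N1.irrefl a
        · rw [A a (Or.inr rfl) a h4 h5]; exact N1.irrefl a
        · rw [B a (Or.inl rfl) a h2.symm h4.symm]; exact N2.irrefl a
        · rw [B a (Or.inr rfl) a h3.symm h5.symm]; exact N2.irrefl a)
      (by
        intro a ha
        rcases inW a ha with rfl | rfl | rfl | rfl
        · rw [ρu, mk4 _ _ _ _ _ h6 b1, N1.card]
        · rw [ρv, mk4 _ _ _ _ _ h6 b2, N1.card]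
        · rw [ρw, mk4 _ _ _ _ _ h1 (by rw [b3, N2.ind_symm u, N2.ind_symm v]), N2.card]
        · rw [ρx, mk4 _ _ _ _ _ h1 (by rw [b4, N2.ind_symm u, N2.ind_symm v]), N2.card])
      (by
        intro z hz
        have hz' : z ≠ u ∧ z ≠ v ∧ z ≠ w ∧ z ≠ x := by simpa [hW, not_or] using hz
        have c1 := col_inv j1 hz
        have c2 := j2 z hz
        rw [sumW, sumW] at c1 ⊢
        simp only [ind, A u (Or.inl rfl) z hz'.2.2.1 hz'.2.2.2,
          A v (Or.inr rfl) z hz'.2.2.1 hz'.2.2.2, B w (Or.inl rfl) z hz'.1 hz'.2.1,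
          B x (Or.inr rfl) z hz'.1 hz'.2.1] at c1 c2 ⊢
        omega)
    have nW : ∀ z, ¬ (z = u ∨ z = v) → ¬ (z = w ∨ z = x) → z ∉ W := fun z t1 t2 t => by
      rcases inW z t with t | t | t | t
      exacts [t1 (Or.inl t), t1 (Or.inr t), t2 (Or.inl t), t2 (Or.inr t)]
    have hu : u ∈ W := by simp [hW]
    have hv : v ∈ W := by simp [hW]
    have hw : w ∈ W := by simp [hW]
    have hx : x ∈ W := by simp [hW]
    have o1 : out {w, x} N = out {w, x} N1 := by
      refine out_eq_iff.2 fun a ha b hb => ?_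
      simp only [mem_insert, mem_singleton, not_or] at ha hb
      by_cases c1 : a = u ∨ a = v
      · rw [hρ a (by rcases c1 with rfl | rfl <;> assumption), A a c1 b hb.1 hb.2]
      · by_cases c2 : b = u ∨ b = v
        · rw [N.symm, N1.symm, hρ b (by rcases c2 with rfl | rfl <;> assumption),
            A b c2 a ha.1 ha.2]
        · exact out_eq_iff.1 hN a (nW a c1 (not_or.2 ha)) b (nW b c2 (not_or.2 hb))
    have o2 : out {u, v} N = out {u, v} N2 := by
      refine out_eq_iff.2 fun a ha b hb => ?_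
      simp only [mem_insert, mem_singleton, not_or] at ha hb
      by_cases c1 : a = w ∨ a = x
      · rw [hρ a (by rcases c1 with rfl | rfl <;> assumption), B a c1 b hb.1 hb.2]
      · by_cases c2 : b = w ∨ b = x
        · rw [N.symm, N2.symm, hρ b (by rcases c2 with rfl | rfl <;> assumption),
            B b c2 a ha.1 ha.2]
        · exact out_eq_iff.1 (hN.trans j1) a (nW a (not_or.2 ha) c1) b (nW b (not_or.2 hb) c2)
    refine ⟨N, ?_, ?_⟩
    · rw [mem_inter, mem_cls, mem_cls, ref_eq_iff]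
      exact ⟨o1, o2, (dl_meas h o1).trans j4⟩
    · simp only [hρ u hu, hρ v hv, uw, ux, vw, vx, Bool.decide_eq_true]

lemma card_block_eq {u v w x : V} (h : Dist u v w x) {N1 N2 : GX d}
    (hj : joint u v w x N1 = joint u v w x N2) :
    (cls (out {w, x}) N1 ∩ cls (ref u v w x) N2).card =
      (cls (out {w, x}) N2 ∩ cls (ref u v w x) N2).card := by
  rw [card_block h hj, card_block h rfl]
  obtain ⟨-, -, j3, j4⟩ := joint_eq_iff.1 hj
  rw [dl_iff, dl_iff] at j4
  have l : ∀ (R R' : Finset V) (p q : V), ind R p + ind R' q ≤ 2 := fun R R' p q => by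
    have := ind_le R p; have := ind_le R' q; omega
  exact cnt_eq (l _ _ _ _) (l _ _ _ _) (l _ _ _ _) (l _ _ _ _) (l _ _ _ _) (l _ _ _ _) j3 j4

lemma comm_ref_out {u v w x : V} (h : Dist u v w x) (f : GX d → ℝ) :
    avg (out {w, x}) (avg (ref u v w x) f) = avg (ref u v w x) (avg (out {w, x}) f) := by
  refine avg_comm_of_count _ _ (joint u v w x)
    (fun N => (cls (out {w, x}) N ∩ cls (ref u v w x) N).card) ?_ ?_
    (fun _ _ t => joint_of_out h t) f
  · intro N1 N2 hj
    exact_mod_cast card_block_eq h hj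
  · intro N1 N2 hj
    refine eq_empty_of_forall_notMem fun N hN => hj ?_
    rw [mem_inter, mem_cls, mem_cls] at hN
    exact (joint_of_out h hN.1).symm.trans (joint_of_ref h hN.2)

lemma comm_ref_ref {u v w x : V} (h : Dist u v w x) (f : GX d → ℝ) :
    avg (ref w x u v) (avg (ref u v w x) f) = avg (ref u v w x) (avg (ref w x u v) f) := by
  refine avg_comm_of_count _ _ (fun N => (joint u v w x N, dl w x u v N))
    (fun N => (cls (out {w, x}) N ∩ cls (ref u v w x) N).card) ?_ ?_ ?_ f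
  · intro N1 N2 hj
    simp only [Prod.mk.injEq, eq_iff_iff] at hj
    rw [← card_block_eq h hj.1]
    congr 2
    ext N
    simp only [mem_inter, mem_cls, ref_eq_iff]
    constructor
    · rintro ⟨⟨t1, _⟩, t2⟩; exact ⟨t1, t2⟩
    · rintro ⟨t1, t2⟩; exact ⟨⟨t1, (dl_meas h.symm t2.1).trans hj.2.symm⟩, t2⟩
  · intro N1 N2 hj
    refine eq_empty_of_forall_notMem fun N hN => hj ?_
    rw [mem_inter, mem_cls, mem_cls] at hN
    obtain ⟨t1, t2⟩ := hN
    have t3 := ref_eq_iff.1 t1
    simp only [Prod.mk.injEq, eq_iff_iff]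
    exact ⟨(joint_of_out h t3.1).symm.trans (joint_of_ref h t2),
      t3.2.symm.trans (dl_meas h.symm (ref_eq_iff.1 t2).1)⟩
  · intro N1 N2 t
    have t3 := ref_eq_iff.1 t
    simp only [Prod.mk.injEq, eq_iff_iff]
    exact ⟨joint_of_out h t3.1, t3.2⟩

lemma ref_sub_eq_zero {u v w x : V} (h : Dist u v w x) (f : GX d → ℝ) {N : GX d}
    (hN : ¬ dl w x u v N) : avg (ref u v w x) f N - avg (out {u, v}) f N = 0 := by
  have : cls (ref u v w x) N = cls (out {u, v}) N := by
    ext N'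
    rw [mem_cls, mem_cls, ref_eq_iff]
    refine ⟨fun t => t.1, fun t => ⟨t, ?_⟩⟩
    obtain ⟨h1, h2, h3, h4, h5, h6⟩ := h
    have e1 := pair_inv h1 t h2.symm h4.symm
    have e2 := pair_inv h1 t h3.symm h5.symm
    rw [dl_iff] at hN
    rw [dl_iff, dl_iff]
    rw [N.ind_symm w u, N.ind_symm w v, N.ind_symm x u, N.ind_symm x v] at hN
    rw [N.ind_symm w u, N.ind_symm w v, N'.ind_symm w u, N'.ind_symm w v] at e1
    rw [N.ind_symm x u, N.ind_symm x v, N'.ind_symm x u, N'.ind_symm x v] at e2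
    have := ind_le (N.1 u) w
    have := ind_le (N.1 u) x
    have := ind_le (N.1 v) w
    have := ind_le (N.1 v) x
    have := ind_le (N'.1 u) w
    have := ind_le (N'.1 u) x
    have := ind_le (N'.1 v) w
    have := ind_le (N'.1 v) x
    omega
  rw [avg_apply, avg_apply, this, sub_self]

open Classical in
/-- The negative part attached to the pair `u, v` relative to `w, x`. -/
noncomputable def negP (u v w x : V) (f : GX d → ℝ) (N : GX d) : ℝ :=
  if dl u v w x N ∧ dl w x u v N then (avg (ref u v w x) f N - avg (out {u, v}) f N) ^ 2 else 0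

/-- The odd part squared. -/
noncomputable def oddP (u v w x : V) (f : GX d → ℝ) (N : GX d) : ℝ :=
  ((f N - f (tau u v w x N)) / 2) ^ 2

theorem pair_ineq {u v w x : V} (h : Dist u v w x) (f : GX d → ℝ) :
    ((∑ N, (oddP u v w x f N - negP u v w x f N)) +
      ∑ N, (oddP w x u v f N - negP w x u v f N)) / 2 ≤
      (f - avg (out {u, v}) f) ⬝ᵥ (f - avg (out {w, x}) f) := by
  classical
  set EA := avg (X := GX d) (out {u, v}) with hEA
  set EB := avg (X := GX d) (out {w, x}) with hEB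
  set PA := avg (X := GX d) (ref u v w x) with hPA
  set PB := avg (X := GX d) (ref w x u v) with hPB
  have sEA : ∀ f g, EA f ⬝ᵥ g = f ⬝ᵥ EA g := avg_symm _
  have sEB : ∀ f g, EB f ⬝ᵥ g = f ⬝ᵥ EB g := avg_symm _
  have sPA : ∀ f g, PA f ⬝ᵥ g = f ⬝ᵥ PA g := avg_symm _
  have sPB : ∀ f g, PB f ⬝ᵥ g = f ⬝ᵥ PB g := avg_symm _
  have iEA : ∀ f, EA (EA f) = EA f := avg_avg _
  have iEB : ∀ f, EB (EB f) = EB f := avg_avg _
  have iPA : ∀ f, PA (PA f) = PA f := avg_avg _
  have iPB : ∀ f, PB (PB f) = PB f := avg_avg _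
  have PE : ∀ f, PA (EA f) = EA f := avg_avg_of_finer fun _ _ t => (ref_eq_iff.1 t).1
  have EP : ∀ f, EA (PA f) = EA f := avg_avg_of_finer' fun _ _ t => (ref_eq_iff.1 t).1
  have c1 : ∀ f, EB (PA f) = PA (EB f) := comm_ref_out h
  have c2 : ∀ f, EA (PB f) = PB (EA f) := comm_ref_out h.symm
  have c3 : ∀ f, PB (PA f) = PA (PB f) := comm_ref_ref h
  set o : GX d → ℝ := fun N => (f N - f (tau u v w x N)) / 2 with ho
  have odd : ∀ s : Finset (GX d), (∀ N ∈ s, tau u v w x N ∈ s) → ∑ N ∈ s, o N = 0 := by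
    intro s hs
    simp only [ho, ← Finset.sum_div, Finset.sum_sub_distrib]
    rw [sum_tau u v w x s hs f]; simp
  have oP : PA o = 0 := by
    funext N
    rw [hPA, avg_apply, odd]; · simp
    intro N' hN'
    rw [mem_cls] at hN' ⊢
    rw [← hN', ref_eq_iff]
    exact ⟨out_tau _ _ _ _ _, dl_meas h (out_tau' _ _ _ _ _)⟩
  have oE : EB o = 0 := by
    funext N
    rw [hEB, avg_apply, odd]; · simp
    intro N' hN'
    rw [mem_cls] at hN' ⊢
    rw [← hN', out_tau']
  have fo : f ⬝ᵥ o = o ⬝ᵥ o := by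
    have t := sum_tau u v w x univ (fun _ _ => mem_univ _) (fun N => f N * o N)
    simp only [ho, tau_tau] at t
    have e : ∀ N, o N * o N = (f N * o N +
        f (tau u v w x N) * ((f (tau u v w x N) - f N) / 2)) / 2 := fun N => by
      simp only [ho]; ring
    simp only [dotProduct, e, ← Finset.sum_div, Finset.sum_add_distrib]
    rw [t]; simp only [ho]; ring
  have i1 := dot_nonneg_of_comm (LinearMap.id - PA) (LinearMap.id - EB)
    (by intro f g; simp [sub_dotProduct, dotProduct_sub, sPA])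
    (by intro f g; simp [sub_dotProduct, dotProduct_sub, sEB])
    (by intro f; simp [iPA]) (by intro f; simp [iEB])
    (by intro f; simp only [LinearMap.sub_apply, LinearMap.id_apply, map_sub, c1]; abel) (f - o)
  have i2 := dot_nonneg_of_comm (PA - EA) (LinearMap.id - PB)
    (by intro f g; simp [sub_dotProduct, dotProduct_sub, sPA, sEA])
    (by intro f g; simp [sub_dotProduct, dotProduct_sub, sPB])
    (by intro f; simp [iPA, iEA, PE, EP]) (by intro f; simp [iPB])
    (by intro f; simp only [LinearMap.sub_apply, LinearMap.id_apply, map_sub, c2, c3]; abel) f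
  simp only [LinearMap.sub_apply, LinearMap.id_apply, map_sub, oP, oE, sub_zero] at i1 i2
  have t1 : PA f ⬝ᵥ o = 0 := by rw [sPA, oP, dotProduct_zero]
  have t2 : o ⬝ᵥ EB f = 0 := by rw [← sEB, oE, zero_dotProduct]
  have i1' : o ⬝ᵥ o ≤ (f - PA f) ⬝ᵥ (f - EB f) := by
    simp only [sub_dotProduct, dotProduct_sub, t1, t2, fo, dotProduct_comm o f] at i1 ⊢
    linarith
  have i3 : -((∑ N, negP u v w x f N) + ∑ N, negP w x u v f N) / 2 ≤
      (PA f - EA f) ⬝ᵥ (PB f - EB f) := by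
    rw [← Finset.sum_add_distrib, ← Finset.sum_neg_distrib, Finset.sum_div]
    refine Finset.sum_le_sum fun N _ => ?_
    simp only [Pi.sub_apply, negP]
    by_cases t : dl u v w x N ∧ dl w x u v N
    · rw [if_pos t, if_pos t.symm]
      nlinarith [sq_nonneg ((PA f N - EA f N) + (PB f N - EB f N))]
    · rw [if_neg t, if_neg (fun s => t s.symm)]
      by_cases t1 : dl u v w x N
      · rw [ref_sub_eq_zero h f (fun s => t ⟨t1, s⟩)]; simp
      · rw [ref_sub_eq_zero h.symm f t1]; simp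
  have e1 : ∑ N, oddP u v w x f N = o ⬝ᵥ o :=
    Finset.sum_congr rfl fun N _ => by simp only [oddP, ho, sq]
  have e2 : ∑ N, oddP w x u v f N = o ⬝ᵥ o :=
    Finset.sum_congr rfl fun N _ => by simp only [oddP, ho, sq, tau_swap w x u v]
  rw [Finset.sum_sub_distrib, Finset.sum_sub_distrib, e1, e2]
  have split : (f - EA f) ⬝ᵥ (f - EB f) = (f - PA f) ⬝ᵥ (f - EB f) +
      (PA f - EA f) ⬝ᵥ (f - PB f) + (PA f - EA f) ⬝ᵥ (PB f - EB f) := by
    simp only [sub_dotProduct, dotProduct_sub]; ring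
  rw [split]
  linarith

end Crest.Agent.R299
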